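import Vale.Agent.P167.H825.Q.BdQ
import Vale.Agent.P167.H411.Q.Out2
import Vale.Agent.P167.QE.On
import Vale.Agent.P167.QB.Defs
import Vale.Agent.P167.BR.Intf
import Vale.Agent.P167.H718.Rc

/-!
# P167, general `q`, block TOP: the interfaces

`√q = 2 cos μ`, `0 < μ < π / 3`. A shape `P : Sh4` is a unit lattice polygon (counterclockwise) with the
marks `b` = midpoint of the side `0` (the target), `a` = midpoint of the side `k` (the tip), `c = q j`,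
`d = q l = 0`. The arc `a → c → d → b` is free, the arc `b → a` is wired. The free arc from `c` to `b`
is a horizontal line, domain above.

* `PZ` : the probability of `ω = ζ` on `Z` and `Z` joined to the free arc from `a` to `c` by a dual path
  outside of `Z`, for a small set `Z` near `d`;
* `GeoQ` : comparison of the exploration (in the lattice domains of a class `K`) with two shapes;
* `IdQ` : asymptotics of the functional in the shapes (block Q-ID);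
* `BrQ` : the functional in terms of `PZ` (block Q-BRIDGE).
-/

set_option autoImplicit false

namespace Vale.Agent.P167.QT

open MeasureTheory Filter Topology Set
open Vale.Agent.P167.BR (sites hbox Jn)
open Vale.Agent.P167.H825 (enl)
open Vale.Agent.P167.H718 (etaW Dob)
open Vale.Agent.P167.H192 (cfg)
open Vale.Agent.P167.H756 (QPos)
open Vale.Agent.P167.E6 (pt dir IsPolygon Encloses region Medial)
open Vale.Agent.P167.H411 (Set6 exn)
open Vale.Agent.P167.H411.Q (OutL hQ)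
open Vale.Agent.P167.H411.B7 (Shp)

/-! ### Shapes -/

/-- A unit lattice polygon with the marks `b` (side `0`), `a` (side `k`), `c = q j`, `d = q l`. -/
structure Sh4 where
  m : ℕ
  q : ZMod m → ℤ × ℤ
  S : Finset (ℤ × ℤ)
  k : ℕ
  j : ℕ
  l : ℕ

/-- The shape is well formed: `d = 0`, the boundary is a horizontal line (domain above) from distance
`ρ` to the left of `c` through `c`, `d` to the end of the side `0`; near the part from `c` to `d` the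
domain is flat up to the distance `ρ`; the side of the tip `a` is horizontal, domain above. -/
structure Sh4.Ok (P : Sh4) (ρ : ℕ) : Prop where
  poly : IsPolygon P.q
  encl : Encloses P.q P.S
  k_pos : 0 < P.k
  k_lt : P.k + ρ + 1 ≤ P.j
  j_lt : P.j + ρ ≤ P.l
  l_lt : P.l + ρ ≤ P.m
  line : ∀ i : ℕ, P.j ≤ i + ρ → i ≤ P.m + 1 → P.q i = ((i : ℤ) - P.l, 0)
  tip : P.q (P.k + 1) = P.q P.k + (1, 0)
  flat : ∀ v : ℤ × ℤ, (P.j : ℤ) - P.l - ρ ≤ v.1 → v.1 < ρ → -(ρ : ℤ) ≤ v.2 → v.2 < ρ →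
    (v ∈ P.S ↔ 0 ≤ v.2)

/-- The conformal quantities `u = x_c / x_d`, `v = D / (x_d - x_c)` of a shape. -/
def Sh4.Pos (P : Sh4) (u v : ℝ) : Prop :=
  QPos (interior (region 1 P.S)) (pt (P.q P.k) + (1 / 2 : ℝ) * pt (P.q (P.k + 1) - P.q P.k))
    (pt (P.q 0) + 1 / 2) (pt (P.q P.j)) 0 u v

/-! ### The random cluster model in the enlarged shape, `d` at the site `v₀` -/

/-- The squares. -/
noncomputable def dom (N : ℕ) (v₀ : ℤ × ℤ) (P : Sh4) : Finset (ℤ × ℤ) := (enl P.S N).image (· + v₀)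

/-- The polygon with `a` at the index `0`. -/
def rot (P : Sh4) (x : ZMod P.m) : ℤ × ℤ := P.q (x + P.k)

/-- A configuration outside: free from `a` to `b`, wired from `b` to `a`. -/
noncomputable def ext (N : ℕ) (v₀ : ℤ × ℤ) (P : Sh4) : Cfg := fun v =>
  etaW (enl P.S N) (Enl.qN (rot P) N (N / 2)) ((P.m - P.k) * N) (v - v₀)

/-- The sites of the free arc from `a` to `c`. -/
def arcc (N : ℕ) (v₀ : ℤ × ℤ) (P : Sh4) : Set (ℤ × ℤ) :=
  {z | ∃ i : ℕ, P.k * N + N / 2 ≤ i ∧ i ≤ P.j * N ∧ Enl.PN P.q N i + v₀ = z}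

open Classical in
/-- The indicator of the event that `ω = ζ` on `Z` and that `Z` is joined to `W` by a dual path of
`D \ Z`. -/
noncomputable def fz (D Z : Finset (ℤ × ℤ)) (ζ : Cfg) (W : Set (ℤ × ℤ)) (ω : Cfg) : ℝ :=
  if (∀ v ∈ Z, ω v = ζ v) ∧ Jn false (D \ Z) ω (sites Z) W then 1 else 0

/-- Its probability in the enlarged shape. -/
noncomputable def PZ (μ : ℝ) (N : ℕ) (v₀ : ℤ × ℤ) (P : Sh4) (Z : Finset (ℤ × ℤ)) (ζ : Cfg) : ℝ :=
  FK.Ex (2 * Real.cos μ) (dom N v₀ P) (ext N v₀ P) (fz (dom N v₀ P) Z ζ (arcc N v₀ P))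

/-- Admissible pairs: `Z` is between the half boxes of radius `r` and `R` of the flat point `v₀`, and
the squares of `Z` which have a primal corner in common with a square above the line and outside of `Z`
are closed. -/
structure Adm (v₀ : ℤ × ℤ) (r R : ℤ) (Z : Finset (ℤ × ℤ)) (ζ : Cfg) : Prop where
  low : hbox v₀ r ⊆ Z
  sub : Z ⊆ hbox v₀ R
  sld : ∀ v ∈ Z, ∀ w : ℤ × ℤ, w ∉ Z → v₀.2 ≤ w.2 →
    (∃ s ∈ sites {v}, s ∈ sites {w} ∧ Even (s.1 + s.2)) → ζ v = false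

/-! ### The geometric input -/

/-- The configuration of the squares. -/
noncomputable def cf {n : ℕ} (p : ZMod n → ℤ × ℤ) (k : ℕ) (A : Finset (Sym2 (ℤ × ℤ))) : Cfg :=
  cfg (Final.wiredOpen p k A)

/-- The comparison for one lattice domain, with the constants `M`, `ε`, `ε'`; `N` squares are one unit.
(i) A bound for all histories; (ii) except on histories of small weight the conditional probabilities
are between those of two shapes, whose conformal quantities (relative to the shape `P₀`) are close to the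
observable. -/
def GeoAt {n : ℕ} (μ : ℝ) (X : Vale.Agent.P153.M1.Expl (Finset (Sym2 (ℤ × ℤ))) Medial)
    (w : Finset (Sym2 (ℤ × ℤ)) → ℝ) (p : ZMod n → ℤ × ℤ) (k : ℕ) (T R b M ε ε' r₀ r₁ : ℝ)
    (Sh : Set Sh4) (P₀ : Sh4) (N : ℕ) : Prop :=
  ∃ (v₀ : ℤ × ℤ) (Dc : Finset (ℤ × ℤ)) (W : Set (ℤ × ℤ)), Even (v₀.1 + v₀.2) ∧
    ∀ κ : Finset (Sym2 (ℤ × ℤ)) → ℕ, QE.BefIx X T R κ →
      (∀ A ∈ X.C, ∀ (Z : Finset (ℤ × ℤ)) (ζ : Cfg), Adm v₀ ⌊r₀ * N⌋ ⌊r₁ * N⌋ Z ζ →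
        QE.cexW X w (fun A' => fz Dc Z ζ W (cf p k A')) A (κ A) ≤ M * PZ μ N v₀ P₀ Z ζ) ∧
      QE.ExW X.C w ({A | ¬ ∃ P ∈ Sh, ∃ P' ∈ Sh,
        (∀ (Z : Finset (ℤ × ℤ)) (ζ : Cfg), Adm v₀ ⌊r₀ * N⌋ ⌊r₁ * N⌋ Z ζ →
          (1 - ε') * PZ μ N v₀ P Z ζ ≤ QE.cexW X w (fun A' => fz Dc Z ζ W (cf p k A')) A (κ A) ∧
          QE.cexW X w (fun A' => fz Dc Z ζ W (cf p k A')) A (κ A) ≤ (1 + ε') * PZ μ N v₀ P' Z ζ) ∧
        ∀ Q : Sh4, (Q = P ∨ Q = P') → ∀ u v u₀ w₀ : ℝ, Q.Pos u v → P₀.Pos u₀ w₀ →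
          |(u ^ (μ / Real.pi) * v ^ hQ μ) / (u₀ ^ (μ / Real.pi) * w₀ ^ hQ μ) -
            QE.obsQ (μ / Real.pi) (X.W A) b (X.c A (κ A))| ≤ ε}.indicator 1) ≤ ε'

/-- **[GEOQ]** The output of SAND-GEO + CONT + CM for the class `K`. The bound `M` does not depend on
`ε'`; the reference shape `P₀ n` may depend on `n`. -/
def GeoQ (μ : ℝ) (K : QE.Cls) : Prop := ∀ (Φ : (ℝ × ℝ) ≃ₜ (ℝ × ℝ)) (ψ : ℂ → ℂ)
  (δ : ℕ → ℝ) (N k : ℕ → ℕ) (p : ∀ n, ZMod (N n) → ℤ × ℤ) (S : ℕ → Finset (ℤ × ℤ))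
  (ψn : ℕ → ℂ → ℂ), Set6 Φ ψ δ N k p S ψn → K Φ δ N k p S → ∀ T R : ℝ, 0 ≤ T → 0 < R →
    ∃ b₁ : ℝ, ∀ b : ℝ, b₁ ≤ b → ∀ ε : ℝ, 0 < ε → ∃ M : ℝ, 0 < M ∧ ∀ ε' : ℝ, 0 < ε' →
      ∃ (Sh : Set Sh4) (P₀ : ℕ → Sh4) (r₁ : ℝ) (N' : ℕ → ℕ), Sh.Finite ∧ (∀ n, P₀ n ∈ Sh) ∧
        (∀ P ∈ Sh, P.Ok 2 ∧ ∃ u v, P.Pos u v) ∧ 0 < r₁ ∧ r₁ ≤ 1 ∧ Tendsto N' atTop atTop ∧
        (∀ n, 4 ∣ N' n) ∧ ∀ r₀ : ℝ, 0 < r₀ → ∀ᶠ n in atTop,
          GeoAt μ (exn δ N k p S ψn n) (QE.wq ((2 * Real.cos μ) ^ 2) (N n) (p n) (k n) (S n)) (p n)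
            (k n) T R b M ε ε' r₀ r₁ Sh (P₀ n) (N' n)

/-! ### The mirror image of a shape (base `b`, free arc from `b` to `a`) -/

/-- The reflection of the sites. -/
def mir (z : ℤ × ℤ) : ℤ × ℤ := (-z.1, z.2)

/-- The reflection of the squares. -/
def msq (v : ℤ × ℤ) : ℤ × ℤ := (-1 - v.1, v.2)

/-- The reflected set of squares. -/
def mirS (S : Finset (ℤ × ℤ)) : Finset (ℤ × ℤ) := S.image msq

/-- The reflected polygon, counterclockwise, with the side `0` at the place of the side `0`. -/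
def mirq {m : ℕ} (q : ZMod m → ℤ × ℤ) (x : ZMod m) : ℤ × ℤ := mir (q (1 - x))

theorem mir_mir (z : ℤ × ℤ) : mir (mir z) = z := by simp [mir]

theorem msq_msq (v : ℤ × ℤ) : msq (msq v) = v := by simp [msq]

theorem mem_mirS {S : Finset (ℤ × ℤ)} {v : ℤ × ℤ} : v ∈ mirS S ↔ msq v ∈ S := by
  unfold mirS
  rw [Finset.mem_image]
  constructor
  · rintro ⟨w, hw, rfl⟩
    rwa [msq_msq]
  · exact fun h => ⟨msq v, h, msq_msq v⟩

theorem mir_dir (z : ℤ × ℤ) (r : Fin 4) : mir (z + dir r) + dir (-r) = mir z := by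
  fin_cases r <;> simp [mir, dir, Fin.neg_def]

theorem msq_face (z : ℤ × ℤ) (r : Fin 4) :
    msq (E6.face z r) = E6.face (mir (z + dir r)) (-r) ∧
      msq (E6.face z (r - 1)) = E6.face (mir (z + dir r)) (-r - 1) := by
  obtain ⟨x, y⟩ := z
  fin_cases r <;> refine ⟨?_, ?_⟩ <;> apply Prod.ext <;>
    simp [mir, msq, dir, E6.face, Fin.neg_def, Fin.sub_def] <;> ring

theorem isPolygon_mirq {m : ℕ} {q : ZMod m → ℤ × ℤ} (h : IsPolygon q) : IsPolygon (mirq q) := by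
  obtain ⟨h1, h2, h3⟩ := h
  refine ⟨h1, fun x y hxy => ?_, fun i => ?_⟩
  · unfold mirq at hxy
    have h4 := congrArg mir hxy
    rw [mir_mir, mir_mir] at h4
    have h5 := h2 h4
    exact sub_right_injective h5
  · obtain ⟨r, hr⟩ := h3 (-i)
    refine ⟨-r, ?_⟩
    unfold mirq
    have e1 : (1 : ZMod m) - (i + 1) = -i := by ring
    have e2 : (1 : ZMod m) - i = -i + 1 := by ring
    rw [e1, e2, hr, ← mir_dir (q (-i)) r]

theorem encloses_mirq {m : ℕ} {q : ZMod m → ℤ × ℤ} {S : Finset (ℤ × ℤ)} (h : Encloses q S) :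
    Encloses (mirq q) (mirS S) := by
  intro v r
  rw [mem_mirS, mem_mirS, (msq_face v r).1, (msq_face v r).2, ← h]
  unfold mirq
  constructor
  · rintro ⟨i, h1, h2⟩
    refine ⟨-i, ?_, ?_⟩
    · rw [← mir_mir (q (-i)), show (-i : ZMod m) = 1 - (i + 1) by ring, h2]
    · rw [mir_dir, ← mir_mir (q (-i + 1)), show (-i + 1 : ZMod m) = 1 - i by ring, h1]
  · rintro ⟨i, h1, h2⟩
    refine ⟨-i, ?_, ?_⟩
    · rw [show (1 - -i : ZMod m) = i + 1 by ring, h2, mir_dir, mir_mir]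
    · rw [show (1 - (-i + 1) : ZMod m) = i by ring, h1, mir_mir]

/-- The mirror image of the shape as a lattice polygon with the base point in the middle of the side
`0`. -/
noncomputable def Sh4.dat {P : Sh4} {ρ : ℕ} (h : P.Ok ρ) : CA.Dat where
  l := P.m
  p := mirq P.q
  Q := mirS P.S
  poly := isPolygon_mirq h.poly
  enc := encloses_mirq h.encl
  r := 0
  step := by
    have h0 := h.line P.m (by have := h.k_lt; have := h.j_lt; have := h.l_lt; omega) (by omega)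
    have h1 := h.line (P.m + 1) (by have := h.k_lt; have := h.j_lt; have := h.l_lt; omega) le_rfl
    have e0 : ((P.m : ℕ) : ZMod P.m) = 0 := ZMod.natCast_self _
    push_cast at h0 h1
    rw [e0] at h0 h1
    rw [zero_add] at h1
    show mir (P.q (1 - 1)) = mir (P.q (1 - 0)) + dir 0
    rw [sub_self, sub_zero, h0, h1]
    simp [mir, dir]
    ring
  tp := 1 / 2
  tp0 := by norm_num
  tp1 := by norm_num

/-- Dobrushin boundary conditions for the mirror image: free from `b` to `a`. -/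
noncomputable def Sh4.bc (P : Sh4) : H825.Q.Bc := .dob (P.m - P.k) (1 / 2)

theorem Sh4.bc_in {P : Sh4} {ρ : ℕ} (h : P.Ok ρ) : P.bc.In (Sh4.dat h).l := by
  have h1 := h.k_pos
  have h2 := h.k_lt
  have h3 := h.j_lt
  have h4 := h.l_lt
  refine ⟨?_, ?_, by norm_num, by norm_num⟩
  · show 0 < P.m - P.k
    omega
  · show P.m - P.k < P.m
    omega

/-- The enlargements by multiples of `4`. -/
def F4 : Filter ℕ := atTop ⊓ 𝓟 {n | 4 ∣ n}

theorem F4_le : F4 ≤ atTop := inf_le_left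

instance : F4.IsCountablyGenerated := by unfold F4; infer_instance

instance : F4.NeBot := by
  unfold F4
  rw [Filter.inf_principal_neBot_iff]
  intro U hU
  obtain ⟨n, hn⟩ := mem_atTop_sets.1 hU
  exact ⟨4 * n, hn _ (by omega), ⟨n, rfl⟩⟩

theorem cos_gB {μ : ℝ} : Real.cos (μ / 2 + QB.gB μ) = Real.sin μ := by
  unfold QB.gB
  rw [show μ / 2 + (μ - Real.pi) / 2 = μ - Real.pi / 2 by ring, Real.cos_sub_pi_div_two]

/-- The family of the Dobrushin functionals (gauge 2) of the mirror image of a shape. -/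
noncomputable def fam {μ : ℝ} (h0 : 0 < μ) (h1 : μ ≤ Real.pi / 3) {P : Sh4} {ρ : ℕ} (h : P.Ok ρ) :
    CAQ.Fam (Sh4.dat h) :=
  (H825.Q.bdQ (Sh4.dat h) μ (QB.gB μ) P.bc (Sh4.bc_in h) F4 F4_le inferInstance).famB h0 h1 cos_gB

/-- **[IDQ]** The asymptotics of the functional with the charges `- μ` at `c` and `μ` at `d`, with one
function `z` for all shapes. -/
def IdQ {μ : ℝ} (h0 : 0 < μ) (h1 : μ ≤ Real.pi / 3) (χ : ℂ → ℝ) : Prop :=
  ∃ z : ℕ → ℝ → ℝ, ∀ (P : Sh4) (h : P.Ok 2) (u v : ℝ), P.Pos u v →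
    OutL μ (fam h0 h1 h) χ z Complex.I ((P.l - P.j : ℝ) : ℂ) Complex.I 0 u v

/-- The functional with the charges `- μ` at `c` (scale `η`) and `μ` at `d` (scale `η'`). -/
noncomputable def Vcd {μ : ℝ} (h0 : 0 < μ) (h1 : μ ≤ Real.pi / 3) (χ : ℂ → ℝ) {P : Sh4} {ρ : ℕ}
    (h : P.Ok ρ) (η η' : ℝ) (N : ℕ) : ℝ :=
  (fam h0 h1 h).V N fun w => -μ * H411.Q.fb χ Complex.I ((P.l - P.j : ℝ) : ℂ) η w +
    μ * H411.Q.fb χ Complex.I 0 η' w

/-- **[BRQ]** The functional in terms of the probabilities `PZ`: one factor `z` and one finite signed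
combination of admissible pairs for all shapes of a finite set; the negative part is small. The scale
`η` at `c` is much smaller than the scale `η'` at `d`. -/
def BrQ {μ : ℝ} (h0 : 0 < μ) (h1 : μ ≤ Real.pi / 3) (χ : ℂ → ℝ) (ε : ℝ) : Prop :=
  ∀ Sh : Set Sh4, Sh.Finite → ∀ r₁ : ℝ, 0 < r₁ → ∃ θ' : ℝ, 0 < θ' ∧
    ∀ η' : ℝ, 0 < η' → η' ≤ θ' → ∃ θ : ℝ, 0 < θ ∧ ∀ η : ℝ, 0 < η → η ≤ θ →
    ∃ r₀ : ℝ, 0 < r₀ ∧ ∀ᶠ N : ℕ in F4,
      ∃ (ι : Type) (_ : Fintype ι) (c : ι → ℝ) (Z : ι → Finset (ℤ × ℤ)) (ζ : ι → Cfg) (z : ℝ),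
        0 < z ∧ (∀ i, Adm (0, 0) ⌊r₀ * N⌋ ⌊r₁ * N⌋ (Z i) (ζ i)) ∧
        ∀ P ∈ Sh, ∀ h : P.Ok 2, (∃ u v, P.Pos u v) →
          |Vcd h0 h1 χ h η η' N - z * ∑ i, c i * PZ μ N (0, 0) P (Z i) (ζ i)| ≤
            ε * |Vcd h0 h1 χ h η η' N| ∧
          ∑ i, (max (-c i) 0) * PZ μ N (0, 0) P (Z i) (ζ i) ≤
            ε * ∑ i, c i * PZ μ N (0, 0) P (Z i) (ζ i)

end Vale.Agent.P167.QT
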