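import Vale.Agent.P167.QE.Ft
import Vale.Agent.P167.Final.QuestionP

/-!
# P167, general `q`, block TOP: the statement of Stage I with the existence of approximations

`QuestionOnE K q`: convergence along all approximations in the class `K`, and for every Jordan domain
along at least one approximation. `StairU`: the union of the four classes `Stair d`.
-/

set_option autoImplicit false

namespace Vale.Agent.P167.QT

open MeasureTheory Filter Topology Set

/-- `QE.QuestionOn K q` together with one approximation for every domain. -/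
def QuestionOnE (K : QE.Cls) (q : ℝ) : Prop :=
  ∃ (Ω : Type) (_ : MeasurableSpace Ω) (P : Measure Ω) (_ : IsProbabilityMeasure P)
    (γ : Ω → ℝ → ℂ), Final.IsSLE (Final.kappa q) P γ ∧
    ∀ Φ : (ℝ × ℝ) ≃ₜ (ℝ × ℝ), (∃ ψ, Final.IsUniformizer Φ ψ) ∧ ∀ ψ, Final.IsUniformizer Φ ψ →
      ∃ G : Ω → C(unitInterval, ℂ),
        (∀ᵐ ω ∂P, G ω 0 = Final.toC (Φ (Final.circ 0)) ∧
          G ω 1 = Final.toC (Φ (Final.circ Real.pi)) ∧
          ∀ t : unitInterval, (t : ℝ) < 1 → G ω t = ψ (γ ω (t / (1 - t)))) ∧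
        (∀ F, Final.BoundedContinuous F → AEMeasurable (fun ω => F (G ω)) P) ∧
        (∀ (δ : ℕ → ℝ) (N k : ℕ → ℕ) (p : ∀ n, ZMod (N n) → ℤ × ℤ)
          (S : ℕ → Finset (ℤ × ℤ)), Final.Approx Φ δ N k p S →
          (∀ n, ∀ A ⊆ Final.edges (S n), ∃ η, Final.IsInterface (p n) (k n) (δ n) A η) ∧
          (K Φ δ N k p S → Final.Converges q P G δ N k p S)) ∧
        ∃ Φ' : (ℝ × ℝ) ≃ₜ (ℝ × ℝ), Final.dom Φ' = Final.dom Φ ∧
          Φ' (Final.circ 0) = Φ (Final.circ 0) ∧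
          Φ' (Final.circ Real.pi) = Φ (Final.circ Real.pi) ∧
          ∀ δ : ℕ → ℝ, (∀ n, 0 < δ n) → Tendsto δ atTop (𝓝 0) →
            ∃ (N k : ℕ → ℕ) (p : ∀ n, ZMod (N n) → ℤ × ℤ) (S : ℕ → Finset (ℤ × ℤ)),
              Final.Approx Φ' δ N k p S ∧ Final.Converges q P G δ N k p S

/-- The union of the four classes of staircases. -/
def StairU : QE.Cls := fun Φ δ N k p S => ∃ d : Fin 4, QE.Stair d Φ δ N k p S

theorem stair_iff {d : Fin 4} {Φ : (ℝ × ℝ) ≃ₜ (ℝ × ℝ)} {δ : ℕ → ℝ} {N k : ℕ → ℕ}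
    {p : ∀ n, ZMod (N n) → ℤ × ℤ} {S : ℕ → Finset (ℤ × ℤ)} :
    QE.Stair d Φ δ N k p S ↔ Final.Staircase d δ N k p := Iff.rfl

theorem questionP_of {q : ℝ} (h : QuestionOnE StairU q) : Final.QuestionP q := h

end Vale.Agent.P167.QT
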