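import Vale.Agent.P167.QT.FinI
import Vale.Agent.P167.QT.OnE
import Vale.Agent.P167.QG.Ne
import Vale.Agent.P167.QG.Exd5
import Vale.Agent.P167.H259.C.Fin

/-!
# P167, general `q`, block TOP: the two final statements from the blocks

`questionP_of_blocks`, `question_of_blocks`: the statements `Final.QuestionP q` and `Final.Question q`
for all `1 ≤ q < 4` from the inputs `GeoQ` (geometry), `IdQ ∧ BrQ` (identity and bridge) and, for the
second one, `DTOut` (tightness of the driver).
-/

set_option autoImplicit false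

namespace Vale.Agent.P167.QT

/-- The geometric block. -/
def BlockG : Prop := ∀ μ : ℝ, 0 < μ → μ < Real.pi / 3 → GeoQ μ (QE.Stair 3)

/-- The blocks of the identity and of the bridge. -/
def BlockIB : Prop :=
  ∀ (μ : ℝ) (h0 : 0 < μ) (h1 : μ ≤ Real.pi / 3), μ < Real.pi / 3 → ∀ ε : ℝ, 0 < ε →
    ∃ χ : ℂ → ℝ, IdQ h0 h1 χ ∧ BrQ h0 h1 χ ε

/-- The block of the tightness of the driver. -/
def BlockDT : Prop := ∀ q : ℝ, 1 < q → q < 4 → H259.C.DTOut q

/-- Stage I, the curve theorem for the class `Stair 3`. -/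
theorem curve_stair3 (hG : BlockG) (hIB : BlockIB) {q : ℝ} (h1 : 1 < q) (h4 : q < 4) :
    QE.CurveLimitOn (QE.Stair 3) (Final.kappa q) (QE.wq q) :=
  curveLimitOn_of QG.Apx.ne_stair3 hG hIB h1 h4

/-- Stage I, the final statement. -/
theorem questionP_of_blocks (hG : BlockG) (hIB : BlockIB) (hone : Final.Question 1) :
    ∀ q : ℝ, 1 ≤ q → q < 4 → Final.QuestionP q := by
  intro q h1 h4
  rcases h1.eq_or_lt with rfl | h1
  · exact questionP_of (QG.questionOnE_of_question hone)
  · exact questionP_of (QG.questionOnE_stair (by linarith) (curve_stair3 hG hIB h1 h4))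

/-- Stage II, the final statement. -/
theorem question_of_blocks (hG : BlockG) (hIB : BlockIB) (hDT : BlockDT)
    (hone : Final.Question 1) : ∀ q : ℝ, 1 ≤ q → q < 4 → Final.Question q := by
  intro q h1 h4
  rcases h1.eq_or_lt with rfl | h1
  · exact hone
  · exact H259.C.question_C h1.le (H264.Rot.curveLimitOn_stairU (curve_stair3 hG hIB h1 h4))
      (hDT q h1 h4)

end Vale.Agent.P167.QT
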