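import Vale.Agent.P167.QT.TopC
import Vale.Agent.P167.H199.DT.Main

/-!
# P167, general `q`, block TOP: the question for all `1 ≤ q < 4` from Stage I
-/

set_option autoImplicit false

namespace Vale.Agent.P167.QT

/-- The tightness of the driver. -/
theorem blockDT : BlockDT := fun _ h1 h4 => H199.DT.dt_out h1.le h4.le

/-- The question for all `1 ≤ q < 4` from the two blocks of Stage I and the question at `q = 1`. -/
theorem question_of_GIB (hG : BlockG) (hIB : BlockIB) (hone : Final.Question 1) :
    ∀ q : ℝ, 1 ≤ q → q < 4 → Final.Question q :=
  question_of_blocks hG hIB blockDT hone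

end Vale.Agent.P167.QT
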