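import Mathlib

/-!
# P167, general `q`, block TOP: the elementary estimate
-/

set_option autoImplicit false

namespace Vale.Agent.P167.QT

open Finset

section

variable {ι : Type*} [Fintype ι]

/-- The signed sum. -/
def sm (c a : ι → ℝ) : ℝ := ∑ i, c i * a i

/-- The negative part. -/
noncomputable def ng (c a : ι → ℝ) : ℝ := ∑ i, max (-c i) 0 * a i

theorem pos_part (c a : ι → ℝ) : ∑ i, max (c i) 0 * a i = sm c a + ng c a := by
  unfold sm ng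
  rw [← sum_add_distrib]
  refine sum_congr rfl fun i _ => ?_
  rcases le_total 0 (c i) with h | h
  · rw [max_eq_left h, max_eq_right (by linarith)]; ring
  · rw [max_eq_right h, max_eq_left (by linarith)]; ring

theorem sm_eq (c a : ι → ℝ) : sm c a = ∑ i, max (c i) 0 * a i - ng c a := by
  rw [pos_part]; ring

theorem abs_sm_le {c X a : ι → ℝ} {M ε : ℝ} (hX : ∀ i, 0 ≤ X i) (hXa : ∀ i, X i ≤ M * a i)
    (hn : ng c a ≤ ε * sm c a) : |sm c X| ≤ M * ((1 + 2 * ε) * sm c a) ∨ M < 0 := by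
  rcases lt_or_ge M 0 with hM | hM
  · exact Or.inr hM
  left
  have h1 : |sm c X| ≤ ∑ i, (max (c i) 0 + max (-c i) 0) * X i := by
    unfold sm
    refine (abs_sum_le_sum_abs _ _).trans (sum_le_sum fun i _ => ?_)
    rw [abs_mul, abs_of_nonneg (hX i)]
    refine mul_le_mul_of_nonneg_right ?_ (hX i)
    rcases le_total 0 (c i) with h | h
    · rw [abs_of_nonneg h, max_eq_left h, max_eq_right (by linarith)]; linarith
    · rw [abs_of_nonpos h, max_eq_right h, max_eq_left (by linarith)]; linarith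
  have h2 : ∑ i, (max (c i) 0 + max (-c i) 0) * X i ≤
      ∑ i, (max (c i) 0 + max (-c i) 0) * (M * a i) :=
    sum_le_sum fun i _ => mul_le_mul_of_nonneg_left (hXa i) (by positivity)
  have h3 : ∑ i, (max (c i) 0 + max (-c i) 0) * (M * a i) = M * (sm c a + 2 * ng c a) := by
    have := pos_part c a
    have e : ∑ i, (max (c i) 0 + max (-c i) 0) * (M * a i) =
        M * (∑ i, max (c i) 0 * a i + ng c a) := by
      unfold ng
      rw [← sum_add_distrib, mul_sum]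
      exact sum_congr rfl fun i _ => by ring
    rw [e, this]; ring
  have h4 : M * (sm c a + 2 * ng c a) ≤ M * ((1 + 2 * ε) * sm c a) := by
    refine mul_le_mul_of_nonneg_left ?_ hM
    linarith
  linarith

/-- The sandwich for signed sums. -/
theorem sm_sand {c X a a' : ι → ℝ} {t e : ℝ} (ht0 : 0 ≤ t) (ht1 : t ≤ 1)
    (ha : ∀ i, 0 ≤ a i) (hX : ∀ i, 0 ≤ X i) (h1 : ∀ i, (1 - t) * a i ≤ X i)
    (h2 : ∀ i, X i ≤ (1 + t) * a' i) (hn' : ng c a' ≤ e * sm c a') :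
    (1 - t) * sm c a - (1 + t) * e * sm c a' ≤ sm c X ∧ sm c X ≤ (1 + t) * (1 + e) * sm c a' := by
  have hp : ∀ i, 0 ≤ max (c i) 0 := fun i => le_max_right _ _
  have hq : ∀ i, 0 ≤ max (-c i) 0 := fun i => le_max_right _ _
  have k1 : ∑ i, max (c i) 0 * X i ≤ (1 + t) * (sm c a' + ng c a') := by
    rw [← pos_part, mul_sum]
    refine sum_le_sum fun i _ => ?_
    have := mul_le_mul_of_nonneg_left (h2 i) (hp i)
    linarith
  have k2 : (1 - t) * (sm c a + ng c a) ≤ ∑ i, max (c i) 0 * X i := by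
    rw [← pos_part, mul_sum]
    refine sum_le_sum fun i _ => ?_
    have := mul_le_mul_of_nonneg_left (h1 i) (hp i)
    linarith
  have k3 : ng c X ≤ (1 + t) * ng c a' := by
    unfold ng
    rw [mul_sum]
    refine sum_le_sum fun i _ => ?_
    have := mul_le_mul_of_nonneg_left (h2 i) (hq i)
    linarith
  have k4 : 0 ≤ ng c X := sum_nonneg fun i _ => mul_nonneg (hq i) (hX i)
  have k5 : 0 ≤ ng c a := sum_nonneg fun i _ => mul_nonneg (hq i) (ha i)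
  rw [sm_eq c X]
  have k6 : 0 ≤ (1 - t) * ng c a := mul_nonneg (by linarith) k5
  have k7 : (1 + t) * ng c a' ≤ (1 + t) * (e * sm c a') := mul_le_mul_of_nonneg_left hn' (by linarith)
  constructor
  · nlinarith
  · nlinarith

end

theorem low_est {t z V V₀ v s s₀ : ℝ} (ht : 0 < t) (ht1 : t ≤ 1 / 10) (hz : 0 < z)
    (hv : 0 < v) (hV₀ : 0 < V₀) (eV : V = v * V₀) (b1 : (1 - t) * V ≤ z * s)
    (b2 : z * s₀ ≤ (1 + t) * V₀) : (1 - 2 * t) * v * s₀ ≤ s := by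
  have b3 : (1 - 2 * t) * v * (z * s₀) ≤ (1 - 2 * t) * v * ((1 + t) * V₀) :=
    mul_le_mul_of_nonneg_left b2 (mul_nonneg (by linarith) hv.le)
  have b4 : (1 - 2 * t) * (1 + t) ≤ 1 - t := by nlinarith
  have b5 : ((1 - 2 * t) * (1 + t)) * (v * V₀) ≤ (1 - t) * (v * V₀) :=
    mul_le_mul_of_nonneg_right b4 (mul_nonneg hv.le hV₀.le)
  rw [eV] at b1
  have b6 : z * ((1 - 2 * t) * v * s₀) ≤ z * s := by
    have e1 : z * ((1 - 2 * t) * v * s₀) = (1 - 2 * t) * v * (z * s₀) := by ring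
    have e2 : (1 - 2 * t) * v * ((1 + t) * V₀) = ((1 - 2 * t) * (1 + t)) * (v * V₀) := by ring
    rw [e1]
    linarith
  exact le_of_mul_le_mul_left b6 hz

theorem up_est {t z V V₀ v s s₀ : ℝ} (ht : 0 < t) (ht1 : t ≤ 1 / 10) (hz : 0 < z)
    (hv : 0 < v) (hV₀ : 0 < V₀) (eV : V = v * V₀) (b1 : z * s ≤ (1 + t) * V)
    (b2 : (1 - t) * V₀ ≤ z * s₀) : s ≤ (1 + 3 * t) * v * s₀ := by
  have b3 : (1 + 3 * t) * v * ((1 - t) * V₀) ≤ (1 + 3 * t) * v * (z * s₀) :=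
    mul_le_mul_of_nonneg_left b2 (mul_nonneg (by linarith) hv.le)
  have b4 : 1 + t ≤ (1 + 3 * t) * (1 - t) := by nlinarith
  have b5 : (1 + t) * (v * V₀) ≤ ((1 + 3 * t) * (1 - t)) * (v * V₀) :=
    mul_le_mul_of_nonneg_right b4 (mul_nonneg hv.le hV₀.le)
  rw [eV] at b1
  have b6 : z * s ≤ z * ((1 + 3 * t) * v * s₀) := by
    have e1 : z * ((1 + 3 * t) * v * s₀) = (1 + 3 * t) * v * (z * s₀) := by ring
    have e2 : (1 + 3 * t) * v * ((1 - t) * V₀) = ((1 + 3 * t) * (1 - t)) * (v * V₀) := by ring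
    rw [e1]
    linarith
  exact le_of_mul_le_mul_left b6 hz

theorem poly_est {t : ℝ} (ht : 0 < t) (ht1 : t ≤ 1 / 10) :
    1 - 3 * t ≤ (1 - t) * (1 - 2 * t) ∧ (1 + t) * t * (1 + 3 * t) ≤ 2 * t ∧
      (1 + t) * (1 + t) * (1 + 3 * t) ≤ 1 + 6 * t := by
  refine ⟨by nlinarith, ?_, ?_⟩
  · have : (1 + t) * (1 + 3 * t) ≤ 2 := by nlinarith
    nlinarith
  · have h2 : t * t ≤ 1 / 10 * t := mul_le_mul_of_nonneg_right ht1 ht.le
    have h3 : t * t * t ≤ 1 / 10 * t * t := by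
      have := mul_le_mul_of_nonneg_right h2 ht.le
      linarith
    nlinarith

theorem y_est {M ε t v v' y m m' o : ℝ} (hM : 0 ≤ M) (hε : 0 < ε) (hε1 : ε ≤ 1)
    (ht : 0 < t) (ht1 : t ≤ 1 / 10) (ht2 : t * (36 * M + 40) ≤ ε) (hv0 : 0 < v) (hv'0 : 0 < v')
    (r1 : |v - m| ≤ t) (r2 : |v' - m'| ≤ t) (o1 : |m - o| ≤ ε) (o2 : |m' - o| ≤ ε)
    (c1 : (1 - 3 * t) * v - 2 * t * v' ≤ y) (c2 : y ≤ (1 + 6 * t) * v') (c3 : y ≤ 3 * M) :
    |y - o| ≤ 2 * ε := by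
  rw [abs_le] at r1 r2 o1 o2
  have d1 : v' ≤ v + 2 * ε + 2 * t := by linarith [r1.1, r2.2, o1.1, o2.2]
  have f1 : v ≤ 6 * M + 1 := by
    have b1 : 2 * t * v' ≤ 2 * t * (v + 2 * ε + 2 * t) := mul_le_mul_of_nonneg_left d1 (by linarith)
    have b2 : 2 * t * (2 * ε + 2 * t) ≤ 1 / 2 := by
      have : 2 * t * (2 * ε + 2 * t) ≤ 2 * (1 / 10) * (2 * 1 + 2 * (1 / 10)) := by gcongr
      linarith
    have b4 : (1 / 2 : ℝ) * v ≤ (1 - 5 * t) * v := mul_le_mul_of_nonneg_right (by linarith) hv0.le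
    have e1 : 2 * t * (v + 2 * ε + 2 * t) = 2 * t * v + 2 * t * (2 * ε + 2 * t) := by ring
    have e2 : (1 - 5 * t) * v = (1 - 3 * t) * v - 2 * t * v := by ring
    linarith
  have f2 : v' ≤ 6 * M + 4 := by linarith
  have f3 : 6 * t * v' ≤ 6 * t * (6 * M + 4) := mul_le_mul_of_nonneg_left f2 (by linarith)
  have f4 : 3 * t * v ≤ 3 * t * (6 * M + 1) := mul_le_mul_of_nonneg_left f1 (by linarith)
  have f5 : 2 * t * v' ≤ 2 * t * (6 * M + 4) := mul_le_mul_of_nonneg_left f2 (by linarith)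
  have f6 : 0 ≤ t * M := mul_nonneg ht.le hM
  have g2 : t * (36 * M + 40) = 36 * (t * M) + 40 * t := by ring
  have g3 : 6 * t * (6 * M + 4) = 36 * (t * M) + 24 * t := by ring
  have g4 : 3 * t * (6 * M + 1) = 18 * (t * M) + 3 * t := by ring
  have g5 : 2 * t * (6 * M + 4) = 12 * (t * M) + 8 * t := by ring
  have g6 : (1 - 3 * t) * v = v - 3 * t * v := by ring
  have g7 : (1 + 6 * t) * v' = v' + 6 * t * v' := by ring
  rw [abs_le]
  constructor
  · linarith [r1.1, o1.1]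
  · linarith [r2.2, o2.2]

/-- The final estimate. -/
theorem fin_est {M ε t V V' V₀ z s s' s₀ m m' o Y : ℝ} (hM : 0 ≤ M) (hε : 0 < ε) (hε1 : ε ≤ 1)
    (ht : 0 < t) (ht1 : t ≤ 1 / 10) (ht2 : t * (36 * M + 40) ≤ ε) (hz : 0 < z)
    (hV : 0 < V) (hV' : 0 < V') (hV₀ : 0 < V₀) (e1 : |V - z * s| ≤ t * V) (e2 : |V' - z * s'| ≤ t * V')
    (e3 : |V₀ - z * s₀| ≤ t * V₀) (r1 : |V / V₀ - m| ≤ t) (r2 : |V' / V₀ - m'| ≤ t)
    (o1 : |m - o| ≤ ε) (o2 : |m' - o| ≤ ε)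
    (hY1 : (1 - t) * s - (1 + t) * t * s' ≤ Y) (hY2 : Y ≤ (1 + t) * (1 + t) * s')
    (hs₀ : 0 < s₀) (hYM : |Y| ≤ 3 * M * s₀) : |Y / s₀ - o| ≤ 2 * ε := by
  rw [abs_le] at e1 e2 e3
  set v := V / V₀ with hv
  set v' := V' / V₀ with hv'
  have hv0 : 0 < v := div_pos hV hV₀
  have hv'0 : 0 < v' := div_pos hV' hV₀
  have eV : V = v * V₀ := by rw [hv]; field_simp
  have eV' : V' = v' * V₀ := by rw [hv']; field_simp
  have a1 : (1 - 2 * t) * v * s₀ ≤ s :=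
    low_est ht ht1 hz hv0 hV₀ eV (by linarith [e1.2]) (by linarith [e3.1])
  have a2 : s' ≤ (1 + 3 * t) * v' * s₀ :=
    up_est ht ht1 hz hv'0 hV₀ eV' (by linarith [e2.1]) (by linarith [e3.2])
  set y := Y / s₀ with hy
  have eY : Y = y * s₀ := by rw [hy]; field_simp
  obtain ⟨d2, d3, d4⟩ := poly_est ht ht1
  rw [eY] at hY1 hY2 hYM
  have c1 : (1 - 3 * t) * v - 2 * t * v' ≤ y := by
    have b2 : (1 - t) * ((1 - 2 * t) * v * s₀) ≤ (1 - t) * s :=
      mul_le_mul_of_nonneg_left a1 (by linarith)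
    have b3 : (1 + t) * t * s' ≤ (1 + t) * t * ((1 + 3 * t) * v' * s₀) :=
      mul_le_mul_of_nonneg_left a2 (by positivity)
    have b4 : (1 - 3 * t) * (v * s₀) ≤ (1 - t) * (1 - 2 * t) * (v * s₀) :=
      mul_le_mul_of_nonneg_right d2 (mul_nonneg hv0.le hs₀.le)
    have b5 : (1 + t) * t * (1 + 3 * t) * (v' * s₀) ≤ 2 * t * (v' * s₀) :=
      mul_le_mul_of_nonneg_right d3 (mul_nonneg hv'0.le hs₀.le)
    have b1 : ((1 - 3 * t) * v - 2 * t * v') * s₀ ≤ y * s₀ := by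
      have g1 : ((1 - 3 * t) * v - 2 * t * v') * s₀ = (1 - 3 * t) * (v * s₀) - 2 * t * (v' * s₀) := by
        ring
      have g2 : (1 - t) * ((1 - 2 * t) * v * s₀) = (1 - t) * (1 - 2 * t) * (v * s₀) := by ring
      have g3 : (1 + t) * t * ((1 + 3 * t) * v' * s₀) = (1 + t) * t * (1 + 3 * t) * (v' * s₀) := by
        ring
      rw [g1]
      linarith
    exact le_of_mul_le_mul_right b1 hs₀
  have c2 : y ≤ (1 + 6 * t) * v' := by
    have b3 : (1 + t) * (1 + t) * s' ≤ (1 + t) * (1 + t) * ((1 + 3 * t) * v' * s₀) :=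
      mul_le_mul_of_nonneg_left a2 (by positivity)
    have b4 : (1 + t) * (1 + t) * (1 + 3 * t) * (v' * s₀) ≤ (1 + 6 * t) * (v' * s₀) :=
      mul_le_mul_of_nonneg_right d4 (mul_nonneg hv'0.le hs₀.le)
    have b1 : y * s₀ ≤ ((1 + 6 * t) * v') * s₀ := by
      have g1 : ((1 + 6 * t) * v') * s₀ = (1 + 6 * t) * (v' * s₀) := by ring
      have g2 : (1 + t) * (1 + t) * ((1 + 3 * t) * v' * s₀) =
        (1 + t) * (1 + t) * (1 + 3 * t) * (v' * s₀) := by ring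
      rw [g1]
      linarith
    exact le_of_mul_le_mul_right b1 hs₀
  have c3 : y ≤ 3 * M := by
    have b1 : y * s₀ ≤ 3 * M * s₀ := (le_abs_self _).trans hYM
    exact le_of_mul_le_mul_right b1 hs₀
  exact y_est hM hε hε1 ht ht1 ht2 hv0 hv'0 r1 r2 o1 o2 c1 c2 c3

end Vale.Agent.P167.QT
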