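import Vale.Agent.P167.QE.On

/-!
# P167, general `q`, block TOP: closeness in probability with a bound which depends on the precision
-/

set_option autoImplicit false
set_option linter.unusedVariables false

namespace Vale.Agent.P167.QT

open MeasureTheory ProbabilityTheory Filter Topology Set
open Vale.Agent.P153.M1
open Vale.Agent.P167.H411 Vale.Agent.P167.QE
open Vale.Agent.P167.E6 Vale.Agent.P167.E2

section

variable {A B : Type*}

/-- As `QE.CloseP`, but the bound `M` may depend on the precision `ε`; the exceptional probability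
`ε'` is chosen after `M`. -/
def CloseM (X : ℕ → Expl A B) (w : ℕ → A → ℝ) (O : (ℝ → ℝ) → ℝ → ℝ → ℝ) : Prop :=
  ∀ T R : ℝ, 0 ≤ T → 0 < R → ∃ b₁ : ℝ, ∀ b : ℝ, b₁ ≤ b → ∀ ε : ℝ, 0 < ε → ∃ M : ℝ,
    ∀ ε' : ℝ, 0 < ε' →
    ∃ φ : ℕ → A → ℝ, ∀ᶠ n in atTop, ∀ κ : A → ℕ, BefIx (X n) T R κ →
      (∀ h ∈ (X n).C, |cexW (X n) (w n) (φ n) h (κ h)| ≤ M) ∧
      ExW (X n).C (w n) ({h | ε < |cexW (X n) (w n) (φ n) h (κ h) -
        O ((X n).W h) b ((X n).c h (κ h))|}.indicator 1) ≤ ε'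

variable {X : ℕ → Expl A B} {w : ℕ → A → ℝ}

theorem closeL_of_closeM {O : (ℝ → ℝ) → ℝ → ℝ → ℝ} {v c₀ c₁ c₂ : ℝ} (hv : 0 ≤ v)
    (hE : Expn O v c₀ c₁ c₂) (hX : AsymB X)
    (hw : ∀ n, ∀ a ∈ (X n).C, 0 < w n a) (hC : CloseM X w O) : CloseL X w O := by
  classical
  intro T R hT hR
  obtain ⟨b₁, h1⟩ := hC T R hT hR
  obtain ⟨b₂, h2⟩ := obs_bdd hv hE hX T R
  refine ⟨max b₁ b₂, fun b hb ε hε => ?_⟩
  obtain ⟨M, hM⟩ := h1 b ((le_max_left _ _).trans hb) (ε / 2) (by positivity)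
  obtain ⟨M', hM'⟩ := h2 b ((le_max_right _ _).trans hb)
  set L : ℝ := |M| + |M'| + 1 with hL
  have hL0 : 0 < L := by positivity
  set ε' : ℝ := ε / (2 * L) with hε'
  have hε'0 : 0 < ε' := by positivity
  obtain ⟨φ, hφ⟩ := hM ε' hε'0
  refine ⟨φ, ?_⟩
  filter_upwards [hφ, hM'] with n hn hn' κ hκ
  obtain ⟨a1, a2⟩ := hn κ hκ
  have a3 := hn' κ hκ
  have hwf := hX.wf n
  set f : A → ℝ := fun h => |cexW (X n) (w n) (φ n) h (κ h) -
    O ((X n).W h) b ((X n).c h (κ h))| with hf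
  have key : ∀ h ∈ (X n).C, f h ≤ ε / 2 + L * ({h | ε / 2 < f h}.indicator 1 h : ℝ) := by
    intro h hh
    by_cases h3 : ε / 2 < f h
    · rw [Set.indicator_of_mem (show h ∈ {h | ε / 2 < f h} from h3), Pi.one_apply, mul_one]
      have h4 : f h ≤ |M| + |M'| := by
        have h5 := abs_sub (cexW (X n) (w n) (φ n) h (κ h)) (O ((X n).W h) b ((X n).c h (κ h)))
        have h6 := a1 h hh
        have h7 := a3 h hh
        have h8 := le_abs_self M
        have h9 := le_abs_self M'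
        simp only [hf]
        linarith
      linarith
    · rw [Set.indicator_of_notMem (show h ∉ {h | ε / 2 < f h} from h3), mul_zero, add_zero]
      push Not at h3
      exact h3
  have e1 := exW_mono hwf.fin (hw n) key
  rw [exW_add hwf.fin (w n) (fun _ => ε / 2)
    (fun h => L * ({h | ε / 2 < f h}.indicator 1 h : ℝ)), exW_const hwf.fin hwf.ne (hw n),
    exW_smul hwf.fin] at e1
  have e2 : L * ExW (X n).C (w n) (fun h => ({h | ε / 2 < f h}.indicator 1 h : ℝ)) ≤ L * ε' :=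
    mul_le_mul_of_nonneg_left a2 hL0.le
  have e3 : L * ε' = ε / 2 := by
    rw [hε']; field_simp
  linarith

end

/-- The input for a class `K` of approximations. -/
def I_closeMOn (K : QE.Cls) (wt : Wt) (O : (ℝ → ℝ) → ℝ → ℝ → ℝ) : Prop :=
  ∀ (Φ : (ℝ × ℝ) ≃ₜ (ℝ × ℝ)) (ψ : ℂ → ℂ)
  (δ : ℕ → ℝ) (N k : ℕ → ℕ) (p : ∀ n, ZMod (N n) → ℤ × ℤ) (S : ℕ → Finset (ℤ × ℤ))
  (ψn : ℕ → ℂ → ℂ), Set6 Φ ψ δ N k p S ψn → K Φ δ N k p S →
    CloseM (exn δ N k p S ψn) (fun n => wt (N n) (p n) (k n) (S n)) O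

end Vale.Agent.P167.QT
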