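import Vale.Agent.P167.QT.Top

/-!
# P167, general `q`, block TOP: the curve theorem for a class `K` from the interfaces
-/

set_option autoImplicit false
set_option linter.unusedVariables false

open MeasureTheory ProbabilityTheory Filter Topology Set Metric
open scoped NNReal ENNReal

namespace Vale.Agent.P167.QT

open Vale.Agent.P153.R2 Vale.Agent.P153.R2.ARCX Vale.Agent.P153.R2.DET Vale.Agent.P153.R2.UNIQ
open Vale.Agent.P153.R2.C1
open Vale.Agent.P167.E6 Vale.Agent.P167.E2 Vale.Agent.P167.QE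
open Vale.Agent.P153.M1 (Expl)
open Vale.Agent.P167.SLE (Cf SeqHyp IsLim CapG bq S_intf S_exap uni_of_uniformizer seq_main
  exists_transfer ae_map_of_continuous)
open Vale.Agent.P167.H411 (Expn Set6 exn DC DCs Qc xc_Qc good_ev DCs_bdd fjr_mono
  I_rado6 AsymB)

theorem closeM_shift {A B : Type*} {X : ℕ → Expl A B} {w : ℕ → A → ℝ}
    {O : (ℝ → ℝ) → ℝ → ℝ → ℝ} (h : CloseM X w O) (n₀ : ℕ) :
    CloseM (fun n => X (n + n₀)) (fun n => w (n + n₀)) O := by
  intro T R hT hR
  obtain ⟨b₁, hb⟩ := h T R hT hR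
  refine ⟨b₁, fun b hb₁ ε hε => ?_⟩
  obtain ⟨M, hM⟩ := hb b hb₁ ε hε
  refine ⟨M, fun ε' hε' => ?_⟩
  obtain ⟨φ, hφ⟩ := hM ε' hε'
  exact ⟨fun n => φ (n + n₀), (tendsto_add_atTop_nat n₀).eventually hφ⟩

/-- **The input of the curve theorem** for the class `K`, from `CloseM`. -/
theorem s_seqMOn {K : Cls} {κ : ℝ} (hκ : 0 < κ) {wt : Wt} (hwt : WPos wt)
    (huinj : UNIQ.I_uinj)
    (hrado : I_rado6) {O : (ℝ → ℝ) → ℝ → ℝ → ℝ} {c₀ c₁ c₂ : ℝ} (hE : Expn O κ c₀ c₁ c₂)
    (hclose : I_closeMOn K wt O) (hcross : I_crossW wt) (hfin : I_finW wt) (hnf : I_nfW wt) :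
    S_seqOn K κ wt := by
  intro _ _ Φ ψ hψ δ N k p S hA hK
  obtain ⟨ψn, H⟩ := hrado Φ ψ hψ δ N k p S hA
  obtain ⟨n₀, hn₀⟩ := eventually_atTop.1 (good_ev H.appr)
  have hD := H.dcs huinj hn₀
  obtain ⟨R, hR⟩ := DCs_bdd hD
  have hs := tendsto_add_atTop_nat n₀
  have hcl := closeL_of_closeM hκ.le hE hD.asymB (fun n A _ => hwt _ _ _ _ A)
    (closeM_shift (hclose Φ ψ δ N k p S ψn H hK) n₀)
  obtain ⟨lam, hlam, hseq⟩ := seqHypL (R := R) (S := fun n => S (n + n₀)) hκ
    (fun n A => hwt _ _ _ _ A) (fun n => rfl) hD hE hcl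
    (fun n a t => hR n a.1 a.2 t)
    (by
      intro y r hr q hq
      obtain ⟨m, hm⟩ := hcross Φ δ N k p S hA y r hr q hq
      refine ⟨m, ?_⟩
      filter_upwards [hs.eventually hm] with n h
      simp only [xc_Qc]
      exact h)
    (by
      intro r hr q hq
      obtain ⟨r', hr', hm⟩ := hfin Φ δ N k p S hA r hr q hq
      refine ⟨r', hr', ?_⟩
      filter_upwards [hs.eventually hm] with n h
      simp only [xc_Qc]
      exact h)
    (by
      intro e he r hr q hq
      obtain ⟨ρ, hρ, hm⟩ := hnf Φ δ N k p S hA e he r hr q hq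
      refine ⟨ρ, hρ, ?_⟩
      filter_upwards [hs.eventually hm] with n h
      refine (measure_mono ?_).trans h
      intro a ha
      have hg := hn₀ (n + n₀) (Nat.le_add_left _ _)
      have ha' := ha
      simp only [mem_ofPred_eq, xc_Qc] at ha'
      rw [(H.isU _ hg).img] at ha'
      refine fjr_mono ?_ ha'
      have hpos : (0 : ℝ) < (nu (p (n + n₀)) (k (n + n₀)) a.1 : ℝ) := by
        exact_mod_cast Nat.succ_pos _
      change ((nu (p (n + n₀)) (k (n + n₀)) a.1 : ℝ) - 1 / 2) /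
        (nu (p (n + n₀)) (k (n + n₀)) a.1 : ℝ) ≤ 1
      rw [div_le_one hpos]
      linarith)
  refine ⟨n₀, _, _, _, _, _, _, _, _, _, lam, R, fun n => 2 * δ (n + n₀), hlam, hseq, ?_, ?_⟩
  · simpa using (hA.2.1.comp hs).const_mul 2
  · intro n a c hc
    obtain ⟨h1, h2, h3, h4, h5⟩ := hA.1 (n + n₀)
    have ha : a.1 ⊆ edges (S (n + n₀)) := Finset.mem_powerset.1 a.2
    refine ⟨OrderIso.refl _, ?_⟩
    rw [H411.reparam_refl, isInterface_unique h4 h5 h3 ha hc, xc_Qc]
    exact dist_crv_Xc h4 h5 h2 h3 ha h1.le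

/-- **The curve theorem for the class `K` and `0 < q < 4`**, closeness in probability with a bound
which depends on the precision. -/
theorem curveLimitOn_obsM {K : Cls} {q : ℝ} (h0 : 0 < q) (h4 : q < 4) (hne : K.Ne)
    (hclose : I_closeMOn K (wq q) (obsQ (muq q / Real.pi))) (hcross : I_crossW (wq q))
    (hfin : I_finW (wq q)) (hnf : I_nfW (wq q)) : CurveLimitOn K (Final.kappa q) (wq q) := by
  obtain ⟨c₀, c₁, c₂, hE⟩ := expn_q h0 h4
  have hκ := kappa_pos' h0.le
  exact curveLimitOn hκ (wq_pos h0) Vale.Agent.P153.R2.R1.i_unif Vale.Agent.P153.R2.R1.i_uinj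
      (s_seqMOn hκ (wq_pos h0) Vale.Agent.P153.R2.R1.i_uinj H411.i_rado6 hE hclose hcross hfin hnf)
      H411.s_intf hne

/-- **The question for the class `K` and `0 < q < 4`**, closeness in probability with a bound which
depends on the precision. -/
theorem questionOn_obsM {K : Cls} {q : ℝ} (h0 : 0 < q) (h4 : q < 4) (hne : K.Ne)
    (hclose : I_closeMOn K (wq q) (obsQ (muq q / Real.pi))) (hcross : I_crossW (wq q))
    (hfin : I_finW (wq q)) (hnf : I_nfW (wq q)) : QuestionOn K q :=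
  questionOn_of_curve h0 (curveLimitOn_obsM h0 h4 hne hclose hcross hfin hnf)

end Vale.Agent.P167.QT
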