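import Vale.Agent.P167.QT.EndM
import Vale.Agent.P167.QC.CrossW
import Vale.Agent.P167.QC.FinW
import Vale.Agent.P167.QN.NfQ

/-!
# P167, general `q`, block TOP: the question for a class `K` and `1 ≤ q < 4` from the interfaces
-/

set_option autoImplicit false

namespace Vale.Agent.P167.QT

open Vale.Agent.P167.QE (muq cos_muq wq obsQ QuestionOn)

theorem muq_lt {q : ℝ} (h1 : 1 < q) : muq q < Real.pi / 3 := by
  unfold muq
  have h2 : 1 < √q := by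
    rw [Real.lt_sqrt (by norm_num)]
    linarith
  have h3 : Real.arccos (1 / 2) = Real.pi / 3 := by
    rw [← Real.cos_pi_div_three]
    exact Real.arccos_cos (by positivity) (by linarith [Real.pi_pos])
  rw [← h3]
  rcases le_total (√q / 2) 1 with h | h
  · exact Real.arccos_lt_arccos (by norm_num) (by linarith) h
  · rw [Real.arccos_of_one_le h, h3]
    positivity

/-- The closeness of the observable from the interfaces, `1 < q < 4`. -/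
theorem closeM_q {K : QE.Cls}
    (hG : ∀ μ : ℝ, 0 < μ → μ < Real.pi / 3 → GeoQ μ K)
    (hIB : ∀ (μ : ℝ) (h0 : 0 < μ) (h1 : μ ≤ Real.pi / 3), μ < Real.pi / 3 → ∀ ε : ℝ, 0 < ε →
      ∃ χ : ℂ → ℝ, IdQ h0 h1 χ ∧ BrQ h0 h1 χ ε) {q : ℝ} (h1 : 1 < q) (h4 : q < 4) :
    I_closeMOn K (wq q) (obsQ (muq q / Real.pi)) := by
  have e1 := QE.muq_pos h4
  have e2 := muq_lt h1
  have e3 := closeM_of e1 e2.le (hG _ e1 e2) (hIB _ e1 e2.le e2)
  rwa [cos_muq h4.le, Real.sq_sqrt (by linarith)] at e3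

/-- **Stage I from the interfaces**, `1 < q < 4`, curve form. -/
theorem curveLimitOn_of {K : QE.Cls} (hne : K.Ne)
    (hG : ∀ μ : ℝ, 0 < μ → μ < Real.pi / 3 → GeoQ μ K)
    (hIB : ∀ (μ : ℝ) (h0 : 0 < μ) (h1 : μ ≤ Real.pi / 3), μ < Real.pi / 3 → ∀ ε : ℝ, 0 < ε →
      ∃ χ : ℂ → ℝ, IdQ h0 h1 χ ∧ BrQ h0 h1 χ ε) {q : ℝ} (h1 : 1 < q) (h4 : q < 4) :
    QE.CurveLimitOn K (Final.kappa q) (wq q) :=
  curveLimitOn_obsM (by linarith) h4 hne (closeM_q hG hIB h1 h4) (QC.crossW h1.le h4.le)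
    (QC.finW h1.le h4.le) (QN.i_nfQ h1.le h4.le)

/-- **Stage I from the interfaces**, `1 < q < 4`. -/
theorem questionOn_of {K : QE.Cls} (hne : K.Ne)
    (hG : ∀ μ : ℝ, 0 < μ → μ < Real.pi / 3 → GeoQ μ K)
    (hIB : ∀ (μ : ℝ) (h0 : 0 < μ) (h1 : μ ≤ Real.pi / 3), μ < Real.pi / 3 → ∀ ε : ℝ, 0 < ε →
      ∃ χ : ℂ → ℝ, IdQ h0 h1 χ ∧ BrQ h0 h1 χ ε) {q : ℝ} (h1 : 1 < q) (h4 : q < 4) :
    QuestionOn K q :=
  QE.questionOn_of_curve (by linarith) (curveLimitOn_of hne hG hIB h1 h4)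

/-- The question implies the question for every class. -/
theorem questionOn_of_question {K : QE.Cls} {q : ℝ} (h : Final.Question q) : QuestionOn K q := by
  obtain ⟨Ω, mΩ, P, hP, γ, hγ, h⟩ := h
  refine ⟨Ω, mΩ, P, hP, γ, hγ, fun Φ => ⟨(h Φ).1, fun ψ hψ => ?_⟩⟩
  obtain ⟨G, h1, h2, h3⟩ := (h Φ).2 ψ hψ
  exact ⟨G, h1, h2, fun δ N k p S hA => ⟨(h3 δ N k p S hA).1, fun _ => (h3 δ N k p S hA).2⟩⟩

end Vale.Agent.P167.QT
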