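import Vale.Agent.P167.QT.FinI
import Vale.Agent.P167.H212.L.Top

/-!
# P167, general `q`, block TOP: the question for `1 < q < 4` (all approximations) from the interfaces
-/

set_option autoImplicit false

namespace Vale.Agent.P167.QT

open Filter Topology
open Vale.Agent.P167.QE (muq wq obsQ)
open Vale.Agent.P167.H397.Q (PasF PasLim S_pas Mono)
open Vale.Agent.P167.H212.L (Sh2 ZDom GeoL ShLim question_geoL)

/-- One sequence of lattice domains with the observable of Stage I. -/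
theorem i_one_of_closeM {K : QE.Cls} {q : ℝ} (h0 : 0 < q) (h4 : q < 4) (hne : K.Ne)
    (hclose : I_closeMOn K (wq q) (obsQ (muq q / Real.pi))) :
    H212.I_one (Final.kappa q) (wq q) := by
  obtain ⟨Φ, δ, N, k, p, S, hA, hK⟩ := hne
  obtain ⟨ψ, hψ⟩ := Vale.Agent.P153.R2.R1.i_unif Φ
  obtain ⟨ψn, H⟩ := H411.i_rado6 Φ ψ hψ δ N k p S hA
  obtain ⟨c₀, c₁, c₂, hE⟩ := QE.expn_q h0 h4
  obtain ⟨n₀, hn₀⟩ := eventually_atTop.1 (H411.good_ev H.appr)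
  have hD := H.dcs Vale.Agent.P153.R2.R1.i_uinj hn₀
  refine ⟨Φ, ψ, δ, N, k, p, S, ψn, H, _, c₀, c₁, c₂, hE, H212.closeL_unshift n₀ ?_⟩
  exact closeL_of_closeM (QE.kappa_pos' h0.le).le hE hD.asymB
    (fun n A _ => QE.wq_pos h0 _ _ _ _ A) (closeM_shift (hclose Φ ψ δ N k p S ψn H hK) n₀)

/-- **Stage II from the interfaces**, `1 < q < 4`: the question, all approximations. -/
theorem question_of {K : QE.Cls} {Re : Sh2 → ℕ → ℤ × ℤ → ZDom → Prop} (hne : K.Ne)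
    (hG : ∀ μ : ℝ, 0 < μ → μ < Real.pi / 3 → GeoQ μ K)
    (hIB : ∀ (μ : ℝ) (h0 : 0 < μ) (h1 : μ ≤ Real.pi / 3), μ < Real.pi / 3 → ∀ ε : ℝ, 0 < ε →
      ∃ χ : ℂ → ℝ, IdQ h0 h1 χ ∧ BrQ h0 h1 χ ε)
    (hpas : ∀ q : ℝ, 1 < q → q < 4 → S_pas K q)
    (hmono : ∀ (q : ℝ) (h : ℂ → ℝ), 1 < q → q < 4 → PasF h → PasLim K q h → Mono h)
    (hsh : ∀ (q : ℝ) (h : ℂ → ℝ), 1 < q → q < 4 → PasF h → PasLim K q h → ShLim Re q h)
    (hgeo : ∀ q : ℝ, 1 < q → q < 4 → GeoL Re q) {q : ℝ} (h1 : 1 < q) (h4 : q < 4) :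
    Final.Question q := by
  obtain ⟨h, hP, hL⟩ := hpas q h1 h4 (curveLimitOn_of hne hG hIB h1 h4)
  exact question_geoL (by linarith) h4 hP (hmono q h h1 h4 hP hL) (hsh q h h1 h4 hP hL)
    (hgeo q h1 h4) (i_one_of_closeM (by linarith) h4 hne (closeM_q hG hIB h1 h4))
    (QC.crossW h1.le h4.le) (QC.finW h1.le h4.le) (QN.i_nfQ h1.le h4.le)

end Vale.Agent.P167.QT
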