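import Vale.Agent.P167.QT.Tr
import Vale.Agent.P167.QT.CloseM
import Vale.Agent.P167.QT.Alg

/-!
# P167, general `q`, block TOP: from `GeoQ`, `IdQ`, `BrQ` to the closeness of the observable
-/

set_option autoImplicit false

namespace Vale.Agent.P167.QT

open MeasureTheory Filter Topology Set
open Vale.Agent.P167.H411 (Set6 exn)
open Vale.Agent.P167.H411.Q (OutL hQ)
open Vale.Agent.P167.QE (ExW cexW BefIx exW_eq_sum cyl_fin)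
open Vale.Agent.P153.M1 (Expl)

/-! ### Linear combinations of conditional expectations -/

theorem exW_sm {α ι : Type*} [Fintype ι] {C : Set α} (hf : C.Finite) (w : α → ℝ) (c : ι → ℝ)
    (f : ι → α → ℝ) (s : ℝ) :
    ExW C w (fun a => sm c (fun i => f i a) / s) = sm c (fun i => ExW C w (f i)) / s := by
  rw [exW_eq_sum hf]
  have h1 : ∀ i, ExW C w (f i) = (∑ h ∈ hf.toFinset, w h * f i h) / ∑ h ∈ hf.toFinset, w h :=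
    fun i => exW_eq_sum hf w (f i)
  simp only [h1]
  unfold sm
  have h2 : ∑ h ∈ hf.toFinset, w h * ((∑ i, c i * f i h) / s) =
      (∑ i, c i * ∑ h ∈ hf.toFinset, w h * f i h) / s := by
    rw [Finset.sum_div]
    simp only [Finset.mul_sum, Finset.sum_div]
    rw [Finset.sum_comm]
    refine Finset.sum_congr rfl fun i _ => Finset.sum_congr rfl fun h _ => ?_
    ring
  rw [h2]
  have h3 : ∑ i, c i * ((∑ h ∈ hf.toFinset, w h * f i h) / ∑ h ∈ hf.toFinset, w h) =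
      (∑ i, c i * ∑ h ∈ hf.toFinset, w h * f i h) / ∑ h ∈ hf.toFinset, w h := by
    rw [Finset.sum_div]
    exact Finset.sum_congr rfl fun i _ => by ring
  rw [h3]
  ring

theorem exW_nonneg {α : Type*} {C : Set α} (hf : C.Finite) {w f : α → ℝ} (hw : ∀ a ∈ C, 0 < w a)
    (h : ∀ a ∈ C, 0 ≤ f a) : 0 ≤ ExW C w f := by
  rw [exW_eq_sum hf]
  refine div_nonneg (Finset.sum_nonneg fun a ha => ?_) (Finset.sum_nonneg fun a ha => ?_)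
  · have := hf.mem_toFinset.1 ha
    exact mul_nonneg (hw a this).le (h a this)
  · exact (hw a (hf.mem_toFinset.1 ha)).le

theorem fz_nonneg (D Z : Finset (ℤ × ℤ)) (ζ : Cfg) (W : Set (ℤ × ℤ)) (ω : Cfg) :
    0 ≤ fz D Z ζ W ω := by
  unfold fz
  split_ifs <;> norm_num

/-! ### Finite families -/

theorem exists_unif {α : Type*} {Sh : Set α} (hf : Sh.Finite) {p : α → ℝ → Prop}
    (h : ∀ P ∈ Sh, ∃ θ : ℝ, 0 < θ ∧ ∀ η : ℝ, 0 < η → η ≤ θ → p P η) :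
    ∃ θ : ℝ, 0 < θ ∧ ∀ P ∈ Sh, ∀ η : ℝ, 0 < η → η ≤ θ → p P η := by
  induction Sh, hf using Set.Finite.induction_on with
  | empty => exact ⟨1, one_pos, fun P hP => absurd hP (Set.notMem_empty P)⟩
  | @insert a s _ _ ih =>
    obtain ⟨θ₁, h1, k1⟩ := ih fun P hP => h P (Set.mem_insert_of_mem _ hP)
    obtain ⟨θ₂, h2, k2⟩ := h a (Set.mem_insert _ _)
    refine ⟨min θ₁ θ₂, lt_min h1 h2, fun P hP η hη hle => ?_⟩
    rcases Set.mem_insert_iff.1 hP with rfl | hP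
    · exact k2 η hη (hle.trans (min_le_right _ _))
    · exact k1 P hP η hη (hle.trans (min_le_left _ _))

theorem ev_finite {α : Type*} {Sh : Set α} (hf : Sh.Finite) {L : Filter ℕ} {p : α → ℕ → Prop}
    (h : ∀ P ∈ Sh, ∀ᶠ n in L, p P n) : ∀ᶠ n in L, ∀ P ∈ Sh, p P n := by
  rw [Filter.eventually_all_finite hf]
  exact h

/-! ### Uniqueness of the conformal quantities, ratio of two shapes -/

theorem fam_L {μ : ℝ} (h0 : 0 < μ) (h1 : μ ≤ Real.pi / 3) {P : Sh4} {ρ : ℕ} (h : P.Ok ρ) :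
    (fam h0 h1 h).L = F4 := rfl

theorem vcd_ratio {μ : ℝ} (h0 : 0 < μ) (h1 : μ ≤ Real.pi / 3) {χ : ℂ → ℝ} {z : ℕ → ℝ → ℝ}
    {P₀ P : Sh4} (h₀ : P₀.Ok 2) (h : P.Ok 2) {u₀ v₀ u v : ℝ}
    (k₀ : OutL μ (fam h0 h1 h₀) χ z Complex.I ((P₀.l - P₀.j : ℝ) : ℂ) Complex.I 0 u₀ v₀)
    (k₁ : OutL μ (fam h0 h1 h) χ z Complex.I ((P.l - P.j : ℝ) : ℂ) Complex.I 0 u v)
    (hu₀ : 0 < u₀) (hv₀ : 0 < v₀) (hu : 0 < u) (hv : 0 < v) {t : ℝ} (ht : 0 < t) :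
    ∃ θ : ℝ, 0 < θ ∧ ∀ η η' : ℝ, 0 < η → η ≤ θ → 0 < η' → η' ≤ θ → ∀ᶠ N : ℕ in F4,
      0 < Vcd h0 h1 χ h₀ η η' N ∧ 0 < Vcd h0 h1 χ h η η' N ∧
        |Vcd h0 h1 χ h η η' N / Vcd h0 h1 χ h₀ η η' N -
          (u ^ (μ / Real.pi) * v ^ hQ μ) / (u₀ ^ (μ / Real.pi) * v₀ ^ hQ μ)| ≤ t := by
  have e1 : (fam h0 h1 h).L = (fam h0 h1 h₀).L := by rw [fam_L, fam_L]
  obtain ⟨θ, hθ, h3⟩ := OutL.ratio e1 k₀ k₁ hu₀ hv₀ hu hv ht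
  refine ⟨θ, hθ, fun η η' hη hle hη' hle' => ?_⟩
  have h4 := h3 η η' hη hle hη' hle'
  rw [fam_L] at h4
  exact h4

theorem derivWithin_unique {φ : ℂ → ℂ} {a b : ℂ} {x : ℝ}
    (h1 : HasDerivWithinAt φ a {z | 0 ≤ z.im} x) (h2 : HasDerivWithinAt φ b {z | 0 ≤ z.im} x) :
    a = b := by
  have hu : UniqueDiffWithinAt ℂ {z : ℂ | 0 ≤ z.im} (x : ℂ) := by
    rw [uniqueDiffWithinAt_iff_accPt, accPt_iff_nhds]
    intro U hU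
    obtain ⟨η, hη, hsub⟩ := Metric.mem_nhds_iff.1 hU
    have hd : dist ((x : ℂ) + (η / 2 : ℝ)) x = η / 2 := by
      rw [dist_eq_norm, add_sub_cancel_left, Complex.norm_real, Real.norm_of_nonneg (by positivity)]
    refine ⟨(x : ℂ) + (η / 2 : ℝ), ⟨hsub ?_, ?_⟩, ?_⟩
    · rw [Metric.mem_ball, hd]; linarith
    · show 0 ≤ ((x : ℂ) + (η / 2 : ℝ)).im
      simp only [Complex.add_im, Complex.ofReal_im, add_zero, le_refl]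
    · intro h
      have h5 : ((η / 2 : ℝ) : ℂ) = 0 := by linear_combination h
      have h6 : η / 2 = 0 := by exact_mod_cast h5
      linarith
  exact hu.eq_deriv _ h1 h2

theorem pos_unique {P : Sh4} {ρ : ℕ} (h : P.Ok ρ) {u v u' v' : ℝ} (h1 : P.Pos u v)
    (h2 : P.Pos u' v') : u = u' ∧ v = v' := by
  have hP : Vale.Agent.P153.R2.R1.NoCut (interior (E6.region 1 P.S)) :=
    (E6.good_D6 one_pos h.poly h.encl).nocut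
  obtain ⟨φ, xc, xd, D, hφ, -, -, hD, hc, hd, hder, rfl, rfl⟩ := h1
  obtain ⟨xc', xd', D', -, -, hD', hc', hd', hder', rfl, rfl⟩ := h2.transfer hP hφ
  obtain ⟨hinj, -⟩ := hφ.injOn hP
  have e1 : xc' = xc := by
    have := hinj (by simp : (xc' : ℂ) ∈ {z : ℂ | 0 ≤ z.im}) (by simp : (xc : ℂ) ∈ {z : ℂ | 0 ≤ z.im})
      (hc'.trans hc.symm)
    exact_mod_cast this
  have e2 : xd' = xd := by
    have := hinj (by simp : (xd' : ℂ) ∈ {z : ℂ | 0 ≤ z.im}) (by simp : (xd : ℂ) ∈ {z : ℂ | 0 ≤ z.im})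
      (hd'.trans hd.symm)
    exact_mod_cast this
  subst e1
  subst e2
  have e3 := derivWithin_unique hder hder'
  have e4 : 1 / D = 1 / D' := by exact_mod_cast e3
  have e5 : D = D' := by
    have := congrArg (fun x : ℝ => x⁻¹) e4
    simpa using this
  subst e5
  exact ⟨rfl, rfl⟩

/-! ### The outputs for a finite set of shapes at one size -/

/-- The data at one size `N`. -/
def At {μ : ℝ} (h0 : 0 < μ) (h1 : μ ≤ Real.pi / 3) (χ : ℂ → ℝ) (Sh : Set Sh4)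
    (t r₀ r₁ η η' : ℝ) (N : ℕ) : Prop :=
  ∃ (ι : Type) (_ : Fintype ι) (c : ι → ℝ) (Z : ι → Finset (ℤ × ℤ)) (ζ : ι → Cfg) (z : ℝ),
    0 < z ∧ (∀ i, Adm (0, 0) ⌊r₀ * N⌋ ⌊r₁ * N⌋ (Z i) (ζ i)) ∧
    (∀ P ∈ Sh, ∀ h : P.Ok 2, 0 < Vcd h0 h1 χ h η η' N ∧
      |Vcd h0 h1 χ h η η' N - z * sm c (fun i => PZ μ N (0, 0) P (Z i) (ζ i))| ≤
        t * Vcd h0 h1 χ h η η' N ∧
      ng c (fun i => PZ μ N (0, 0) P (Z i) (ζ i)) ≤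
        t * sm c (fun i => PZ μ N (0, 0) P (Z i) (ζ i))) ∧
    ∀ P ∈ Sh, ∀ P₀ ∈ Sh, ∀ (h : P.Ok 2) (h₀ : P₀.Ok 2), ∀ u v u₀ v₀ : ℝ, P.Pos u v →
      P₀.Pos u₀ v₀ → |Vcd h0 h1 χ h η η' N / Vcd h0 h1 χ h₀ η η' N -
        (u ^ (μ / Real.pi) * v ^ hQ μ) / (u₀ ^ (μ / Real.pi) * v₀ ^ hQ μ)| ≤ t

theorem at_of {μ : ℝ} (h0 : 0 < μ) (h1 : μ ≤ Real.pi / 3) {χ : ℂ → ℝ} {t : ℝ}
    (hI : IdQ h0 h1 χ) (hB : BrQ h0 h1 χ t) {Sh : Set Sh4} (hf : Sh.Finite)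
    (hok : ∀ P ∈ Sh, P.Ok 2 ∧ ∃ u v, P.Pos u v) {r₁ : ℝ} (hr₁ : 0 < r₁) (ht : 0 < t) :
    ∃ η η' r₀ : ℝ, 0 < r₀ ∧ ∀ᶠ N : ℕ in F4, At h0 h1 χ Sh t r₀ r₁ η η' N := by
  obtain ⟨θ₁, hθ₁, hB1⟩ := hB Sh hf r₁ hr₁
  obtain ⟨zf, hz⟩ := hI
  have hff : (Sh ×ˢ Sh).Finite := hf.prod hf
  obtain ⟨θ₂, hθ₂, hI1⟩ := exists_unif hff (p := fun PP θ => ∀ η η' : ℝ, 0 < η → η ≤ θ → 0 < η' → η' ≤ θ → ∀ (h : PP.1.Ok 2) (h₀ : PP.2.Ok 2),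
      ∀ u v u₀ v₀ : ℝ, PP.1.Pos u v → PP.2.Pos u₀ v₀ →
      ∀ᶠ N : ℕ in F4, 0 < Vcd h0 h1 χ h₀ η η' N ∧ 0 < Vcd h0 h1 χ h η η' N ∧
        |Vcd h0 h1 χ h η η' N / Vcd h0 h1 χ h₀ η η' N -
          (u ^ (μ / Real.pi) * v ^ hQ μ) / (u₀ ^ (μ / Real.pi) * v₀ ^ hQ μ)| ≤ t) (by
    rintro ⟨P, P₀⟩ ⟨hP, hP₀⟩
    obtain ⟨u, v, hp⟩ := (hok P hP).2
    obtain ⟨u₀, v₀, hp₀⟩ := (hok P₀ hP₀).2
    obtain ⟨θ, hθ, h3⟩ := vcd_ratio h0 h1 (hok P₀ hP₀).1 (hok P hP).1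
      (hz P₀ (hok P₀ hP₀).1 u₀ v₀ hp₀) (hz P (hok P hP).1 u v hp) hp₀.pos.1 hp₀.pos.2
      hp.pos.1 hp.pos.2 ht
    refine ⟨θ, hθ, fun θ' _ hle' η η' hη hle hη' hle2 h h₀ u' v' u₀' v₀' hp' hp₀' => ?_⟩
    obtain ⟨rfl, rfl⟩ := pos_unique h hp hp'
    obtain ⟨rfl, rfl⟩ := pos_unique h₀ hp₀ hp₀'
    exact h3 η η' hη (hle.trans hle') hη' (hle2.trans hle'))
  set η' := min θ₁ θ₂ with hη'
  have hη'0 : 0 < η' := lt_min hθ₁ hθ₂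
  obtain ⟨θ₃, hθ₃, hB3⟩ := hB1 η' hη'0 (min_le_left _ _)
  set η := min θ₃ θ₂ with hη
  have hη0 : 0 < η := lt_min hθ₃ hθ₂
  obtain ⟨r₀, hr₀, hB2⟩ := hB3 η hη0 (min_le_left _ _)
  refine ⟨η, η', r₀, hr₀, ?_⟩
  have hI2 : ∀ᶠ N : ℕ in F4, ∀ PP ∈ Sh ×ˢ Sh, ∀ (h : PP.1.Ok 2) (h₀ : PP.2.Ok 2),
      ∀ u v u₀ v₀ : ℝ, PP.1.Pos u v → PP.2.Pos u₀ v₀ →
      0 < Vcd h0 h1 χ h₀ η η' N ∧ 0 < Vcd h0 h1 χ h η η' N ∧
        |Vcd h0 h1 χ h η η' N / Vcd h0 h1 χ h₀ η η' N -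
          (u ^ (μ / Real.pi) * v ^ hQ μ) / (u₀ ^ (μ / Real.pi) * v₀ ^ hQ μ)| ≤ t := by
    refine ev_finite hff fun PP hPP => ?_
    have k1 := hok PP.1 hPP.1
    have k2 := hok PP.2 hPP.2
    obtain ⟨u, v, hp⟩ := k1.2
    obtain ⟨u₀, v₀, hp₀⟩ := k2.2
    filter_upwards [hI1 PP hPP θ₂ hθ₂ le_rfl η η' hη0 (min_le_right _ _) hη'0 (min_le_right _ _)
      k1.1 k2.1 u v u₀ v₀ hp hp₀] with
      N hN h h₀ u' v' u₀' v₀' hp' hp₀'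
    obtain ⟨rfl, rfl⟩ := pos_unique h hp hp'
    obtain ⟨rfl, rfl⟩ := pos_unique h₀ hp₀ hp₀'
    exact hN
  filter_upwards [hB2, hI2] with N hN1 hN2
  obtain ⟨ι, hι, c, Z, ζ, z, hz0, hadm, hall⟩ := hN1
  refine ⟨ι, hι, c, Z, ζ, z, hz0, hadm, fun P hP h => ?_, fun P hP P₀ hP₀ h h₀ u v u₀ v₀ hp hp₀ =>
    (hN2 (P, P₀) ⟨hP, hP₀⟩ h h₀ u v u₀ v₀ hp hp₀).2.2⟩
  obtain ⟨u, v, hp⟩ := (hok P hP).2
  obtain ⟨-, a2, -⟩ := hN2 (P, P) ⟨hP, hP⟩ h h u v u v hp hp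
  obtain ⟨b1, b2⟩ := hall P hP h ⟨u, v, hp⟩
  rw [abs_of_pos a2] at b1
  exact ⟨a2, b1, b2⟩

theorem pz_nonneg {μ : ℝ} (h0 : 0 < μ) (h1 : μ ≤ Real.pi / 3) (N : ℕ) (v₀ : ℤ × ℤ) (P : Sh4)
    (Z : Finset (ℤ × ℤ)) (ζ : Cfg) : 0 ≤ PZ μ N v₀ P Z ζ :=
  FKA.Ex_nonneg (H542.Q.BD.cos_pos h0 h1) fun _ _ => fz_nonneg _ _ _ _ _

/-- The statement at one size. -/
theorem one_n {μ : ℝ} (h0 : 0 < μ) (h1 : μ ≤ Real.pi / 3) {χ : ℂ → ℝ} {Sh : Set Sh4}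
    (hok : ∀ P ∈ Sh, P.Ok 2 ∧ ∃ u v, P.Pos u v) {P₀ : Sh4} (hP₀ : P₀ ∈ Sh)
    {t r₀ r₁ η η' : ℝ} {N' : ℕ} (hAt : At h0 h1 χ Sh t r₀ r₁ η η' N') {n : ℕ}
    {X : Expl (Finset (Sym2 (ℤ × ℤ))) E6.Medial} {w : Finset (Sym2 (ℤ × ℤ)) → ℝ}
    {p : ZMod n → ℤ × ℤ} {k : ℕ} {T R b M ε : ℝ} (hX : X.C.Finite)
    (hw : ∀ a ∈ X.C, 0 < w a) (hM : 0 ≤ M) (hε : 0 < ε) (hε1 : ε ≤ 1) (ht : 0 < t)
    (ht1 : t ≤ 1 / 10) (ht2 : t * (36 * M + 40) ≤ ε)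
    (hG : GeoAt μ X w p k T R b M ε t r₀ r₁ Sh P₀ N') :
    ∃ φ : Finset (Sym2 (ℤ × ℤ)) → ℝ, ∀ κ : Finset (Sym2 (ℤ × ℤ)) → ℕ, BefIx X T R κ →
      (∀ h ∈ X.C, |cexW X w φ h (κ h)| ≤ 3 * M) ∧
      ExW X.C w ({h | 2 * ε < |cexW X w φ h (κ h) -
        QE.obsQ (μ / Real.pi) (X.W h) b (X.c h (κ h))|}.indicator 1) ≤ t := by
  classical
  obtain ⟨ι, hι, c, Z, ζ, z, hz, hadm, hall, hrat⟩ := hAt
  obtain ⟨v₀, Dc, W, hv₀, hG⟩ := hG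
  obtain ⟨u₀, w₀, hp₀⟩ := (hok P₀ hP₀).2
  set a : Sh4 → ι → ℝ := fun P i => PZ μ N' (0, 0) P (Z i) (ζ i) with ha
  have ha0 : ∀ P i, 0 ≤ a P i := fun P i => pz_nonneg h0 h1 _ _ _ _ _
  obtain ⟨V₀pos, e₀, n₀⟩ := hall P₀ hP₀ (hok P₀ hP₀).1
  have hs₀ : 0 < sm c (a P₀) := by
    have k1 := (abs_le.1 e₀).2
    have k2 : 0 < z * sm c (a P₀) := by
      have := mul_le_mul_of_nonneg_right ht1 V₀pos.le
      linarith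
    exact (mul_pos_iff_of_pos_left hz).1 k2
  set f : ι → Finset (Sym2 (ℤ × ℤ)) → ℝ := fun i A' =>
    fz Dc (shS v₀ (Z i)) (shC v₀ (ζ i)) W (cf p k A') with hf
  refine ⟨fun A' => sm c (fun i => f i A') / sm c (a P₀), fun κ hκ => ?_⟩
  obtain ⟨g1, g2⟩ := hG κ hκ
  have hadm' : ∀ i, Adm v₀ ⌊r₀ * N'⌋ ⌊r₁ * N'⌋ (shS v₀ (Z i)) (shC v₀ (ζ i)) :=
    fun i => adm_sh hv₀ (hadm i)
  have hpz : ∀ P i, PZ μ N' v₀ P (shS v₀ (Z i)) (shC v₀ (ζ i)) = a P i :=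
    fun P i => pz_sh h0 h1 hv₀ N' P (Z i) (ζ i)
  have hlin : ∀ h, cexW X w (fun A' => sm c (fun i => f i A') / sm c (a P₀)) h (κ h) =
      sm c (fun i => cexW X w (f i) h (κ h)) / sm c (a P₀) :=
    fun h => exW_sm (cyl_fin hX h (κ h)) w c f _
  have hX0 : ∀ h i, 0 ≤ cexW X w (f i) h (κ h) := fun h i =>
    QE.cexW_nonneg hw (fun _ _ => fz_nonneg _ _ _ _ _) h (κ h)
  have hYM : ∀ h ∈ X.C, |sm c (fun i => cexW X w (f i) h (κ h))| ≤ 3 * M * sm c (a P₀) := by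
    intro h hh
    have k1 : ∀ i, cexW X w (f i) h (κ h) ≤ M * a P₀ i := fun i => by
      have := g1 h hh _ _ (hadm' i)
      rwa [hpz] at this
    rcases abs_sm_le (hX0 h) k1 n₀ with k2 | k2
    · refine k2.trans ?_
      have : M * ((1 + 2 * t) * sm c (a P₀)) ≤ M * (3 * sm c (a P₀)) :=
        mul_le_mul_of_nonneg_left (mul_le_mul_of_nonneg_right (by linarith) hs₀.le) hM
      linarith
    · exact absurd k2 (not_lt.2 hM)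
  refine ⟨fun h hh => ?_, ?_⟩
  · rw [hlin, abs_div, abs_of_pos hs₀, div_le_iff₀ hs₀]
    exact hYM h hh
  · refine le_trans (QE.exW_mono hX hw fun h hh => ?_) g2
    by_cases hb : h ∈ {A | ¬ ∃ P ∈ Sh, ∃ P' ∈ Sh,
        (∀ (Z : Finset (ℤ × ℤ)) (ζ : Cfg), Adm v₀ ⌊r₀ * N'⌋ ⌊r₁ * N'⌋ Z ζ →
          (1 - t) * PZ μ N' v₀ P Z ζ ≤ QE.cexW X w (fun A' => fz Dc Z ζ W (cf p k A')) A (κ A) ∧
          QE.cexW X w (fun A' => fz Dc Z ζ W (cf p k A')) A (κ A) ≤ (1 + t) * PZ μ N' v₀ P' Z ζ) ∧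
        ∀ Q : Sh4, (Q = P ∨ Q = P') → ∀ u v u₀ w₀ : ℝ, Q.Pos u v → P₀.Pos u₀ w₀ →
          |(u ^ (μ / Real.pi) * v ^ hQ μ) / (u₀ ^ (μ / Real.pi) * w₀ ^ hQ μ) -
            QE.obsQ (μ / Real.pi) (X.W A) b (X.c A (κ A))| ≤ ε}
    · rw [Set.indicator_of_mem hb]
      exact Set.indicator_le_self' (fun _ _ => zero_le_one) h
    · rw [Set.indicator_of_notMem hb, Set.indicator_of_notMem]
      simp only [Set.mem_ofPred_eq, not_not] at hb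
      obtain ⟨P, hP, P', hP', hs, hcl⟩ := hb
      simp only [Set.mem_ofPred_eq, not_lt]
      obtain ⟨u, v, hp⟩ := (hok P hP).2
      obtain ⟨u', v', hp'⟩ := (hok P' hP').2
      obtain ⟨Vpos, e1, -⟩ := hall P hP (hok P hP).1
      obtain ⟨V'pos, e2, n2⟩ := hall P' hP' (hok P' hP').1
      have r1 := hrat P hP P₀ hP₀ (hok P hP).1 (hok P₀ hP₀).1 u v u₀ w₀ hp hp₀
      have r2 := hrat P' hP' P₀ hP₀ (hok P' hP').1 (hok P₀ hP₀).1 u' v' u₀ w₀ hp' hp₀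
      have o1 := hcl P (Or.inl rfl) u v u₀ w₀ hp hp₀
      have o2 := hcl P' (Or.inr rfl) u' v' u₀ w₀ hp' hp₀
      obtain ⟨y1, y2⟩ := sm_sand (c := c) (X := fun i => cexW X w (f i) h (κ h)) (a := a P)
        (a' := a P') ht.le (by linarith) (ha0 P) (hX0 h)
        (fun i => by have := (hs _ _ (hadm' i)).1; rwa [hpz] at this)
        (fun i => by have := (hs _ _ (hadm' i)).2; rwa [hpz] at this) n2
      rw [hlin]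
      exact fin_est hM hε hε1 ht ht1 ht2 hz Vpos V'pos V₀pos e1 e2 e₀ r1 r2 o1 o2 y1 y2 hs₀
        (hYM h hh)

/-- **[Q-TOP]** The geometric input and the two inputs of the functional give the closeness of the
observable. -/
theorem closeM_of {μ : ℝ} (h0 : 0 < μ) (h1 : μ ≤ Real.pi / 3) {K : QE.Cls} (hG : GeoQ μ K)
    (hIB : ∀ ε : ℝ, 0 < ε → ∃ χ : ℂ → ℝ, IdQ h0 h1 χ ∧ BrQ h0 h1 χ ε) :
    I_closeMOn K (QE.wq ((2 * Real.cos μ) ^ 2)) (QE.obsQ (μ / Real.pi)) := by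
  classical
  intro Φ ψ δ N k p S ψn hS hK T R hT hR
  obtain ⟨b₁, hb₁⟩ := hG Φ ψ δ N k p S ψn hS hK T R hT hR
  have hQ : (0 : ℝ) < (2 * Real.cos μ) ^ 2 := by
    have := H542.Q.BD.cos_pos h0 h1
    positivity
  refine ⟨b₁, fun b hb ε hε => ?_⟩
  set ε₁ : ℝ := min (ε / 2) 1 with hε₁
  have hε₁0 : 0 < ε₁ := lt_min (by positivity) one_pos
  have hε₁1 : ε₁ ≤ 1 := min_le_right _ _
  have hε₁2 : 2 * ε₁ ≤ ε := by
    have := min_le_left (ε / 2) 1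
    linarith
  obtain ⟨M, hM, hM'⟩ := hb₁ b hb ε₁ hε₁0
  refine ⟨3 * M, fun ε' hε' => ?_⟩
  set t : ℝ := min (min (1 / 10) ε') (ε₁ / (36 * M + 40)) with ht
  have hden : (0 : ℝ) < 36 * M + 40 := by positivity
  have ht0 : 0 < t := lt_min (lt_min (by norm_num) hε') (div_pos hε₁0 hden)
  have ht1 : t ≤ 1 / 10 := (min_le_left _ _).trans (min_le_left _ _)
  have ht2 : t ≤ ε' := (min_le_left _ _).trans (min_le_right _ _)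
  have ht3 : t * (36 * M + 40) ≤ ε₁ := (le_div_iff₀ hden).1 (min_le_right _ _)
  obtain ⟨Sh, P₀, r₁, N', hf, hP₀, hok, hr₁, -, hN', hN4, hGeo⟩ := hM' t ht0
  obtain ⟨χ, hI, hB⟩ := hIB t ht0
  obtain ⟨η, η', r₀, hr₀, hat⟩ := at_of h0 h1 hI hB hf hok hr₁ ht0
  have hF4 : Tendsto N' atTop F4 := by
    unfold F4
    exact tendsto_inf.2 ⟨hN', tendsto_principal.2 (Eventually.of_forall hN4)⟩
  have key : ∀ᶠ n in atTop, ∃ φ : Finset (Sym2 (ℤ × ℤ)) → ℝ,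
      ∀ κ : Finset (Sym2 (ℤ × ℤ)) → ℕ, BefIx (exn δ N k p S ψn n) T R κ →
      (∀ h ∈ (exn δ N k p S ψn n).C,
        |cexW (exn δ N k p S ψn n) (QE.wq ((2 * Real.cos μ) ^ 2) (N n) (p n) (k n) (S n)) φ h
          (κ h)| ≤ 3 * M) ∧
      ExW (exn δ N k p S ψn n).C (QE.wq ((2 * Real.cos μ) ^ 2) (N n) (p n) (k n) (S n))
        ({h | 2 * ε₁ < |cexW (exn δ N k p S ψn n)
            (QE.wq ((2 * Real.cos μ) ^ 2) (N n) (p n) (k n) (S n)) φ h (κ h) -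
          QE.obsQ (μ / Real.pi) ((exn δ N k p S ψn n).W h) b
            ((exn δ N k p S ψn n).c h (κ h))|}.indicator 1) ≤ t := by
    filter_upwards [hGeo r₀ hr₀, hF4.eventually hat] with n g1 g2
    exact one_n h0 h1 hok (hP₀ n) g2 (Finset.finite_toSet _)
      (fun A _ => QE.wq_pos hQ _ _ _ _ A) hM.le hε₁0 hε₁1 ht0 ht1 ht3 g1
  let φ : ℕ → Finset (Sym2 (ℤ × ℤ)) → ℝ := fun n => if h : ∃ φ : Finset (Sym2 (ℤ × ℤ)) → ℝ,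
      ∀ κ : Finset (Sym2 (ℤ × ℤ)) → ℕ, BefIx (exn δ N k p S ψn n) T R κ →
      (∀ h ∈ (exn δ N k p S ψn n).C,
        |cexW (exn δ N k p S ψn n) (QE.wq ((2 * Real.cos μ) ^ 2) (N n) (p n) (k n) (S n)) φ h
          (κ h)| ≤ 3 * M) ∧
      ExW (exn δ N k p S ψn n).C (QE.wq ((2 * Real.cos μ) ^ 2) (N n) (p n) (k n) (S n))
        ({h | 2 * ε₁ < |cexW (exn δ N k p S ψn n)
            (QE.wq ((2 * Real.cos μ) ^ 2) (N n) (p n) (k n) (S n)) φ h (κ h) -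
          QE.obsQ (μ / Real.pi) ((exn δ N k p S ψn n).W h) b
            ((exn δ N k p S ψn n).c h (κ h))|}.indicator 1) ≤ t then h.choose else 0
  refine ⟨φ, ?_⟩
  filter_upwards [key] with n hn κ hκ
  have e : φ n = hn.choose := by simp only [φ, dif_pos hn]
  rw [e]
  obtain ⟨a1, a2⟩ := hn.choose_spec κ hκ
  refine ⟨a1, le_trans (QE.exW_mono (Finset.finite_toSet _)
    (fun A _ => QE.wq_pos hQ _ _ _ _ A) fun h hh => ?_) (a2.trans ht2)⟩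
  refine Set.indicator_le_indicator_of_subset (fun h' hh' => ?_) (fun _ => zero_le_one) h
  simp only [Set.mem_ofPred_eq] at hh' ⊢
  exact hε₁2.trans_lt hh'

end Vale.Agent.P167.QT
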