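import Vale.Agent.P167.QT.Defs
import Vale.Agent.P167.FK.Sym

/-!
# P167, general `q`, block TOP: translation by an even vector
-/

set_option autoImplicit false

namespace Vale.Agent.P167.QT

open MeasureTheory Filter Topology Set
open Vale.Agent.P167.BR (sites hbox Jn mem_sites)
open Vale.Agent.P167.H825 (enl)
open Vale.Agent.P167.H718 (etaW)
open Vale.Agent.P145.FB (PStep)

/-- The translated set. -/
def shS (p : ℤ × ℤ) (Z : Finset (ℤ × ℤ)) : Finset (ℤ × ℤ) := Z.image (· + p)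

/-- The translated configuration. -/
def shC (p : ℤ × ℤ) (ω : Cfg) : Cfg := fun v => ω (v - p)

theorem mem_shS {p v : ℤ × ℤ} {Z : Finset (ℤ × ℤ)} : v ∈ shS p Z ↔ v - p ∈ Z := by
  unfold shS
  rw [Finset.mem_image]
  constructor
  · rintro ⟨w, hw, rfl⟩
    rwa [add_sub_cancel_right]
  · exact fun h => ⟨_, h, sub_add_cancel _ _⟩

theorem mem_sites_shS {p v : ℤ × ℤ} {Z : Finset (ℤ × ℤ)} : v ∈ sites (shS p Z) ↔ v - p ∈ sites Z := by
  rw [mem_sites, mem_sites]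
  constructor
  · rintro ⟨w, hw, h1, h2⟩
    refine ⟨w - p, mem_shS.1 hw, ?_, ?_⟩ <;> simp only [Prod.fst_sub, Prod.snd_sub] <;> omega
  · rintro ⟨w, hw, h1, h2⟩
    refine ⟨w + p, mem_shS.2 (by rwa [add_sub_cancel_right]), ?_, ?_⟩ <;>
      simp only [Prod.fst_sub, Prod.snd_sub, Prod.fst_add, Prod.snd_add] at h1 h2 ⊢ <;> omega

theorem pstep_sh {p u v : ℤ × ℤ} {F F' : Set (ℤ × ℤ)} (h : ∀ w, w + p ∈ F' ↔ w ∈ F) :
    PStep F' (u + p) (v + p) ↔ PStep F u v := by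
  unfold PStep
  have e : (min (u + p).1 (v + p).1, min (u + p).2 (v + p).2) = (min u.1 v.1, min u.2 v.2) + p := by
    apply Prod.ext <;> simp only [Prod.fst_add, Prod.snd_add] <;> omega
  rw [e, h]
  simp only [Prod.fst_add, Prod.snd_add]
  constructor <;> rintro ⟨h1, h2, h3⟩ <;> exact ⟨by omega, by omega, h3⟩

theorem rtg_sh {p u v : ℤ × ℤ} {F F' : Set (ℤ × ℤ)} (h : ∀ w, w + p ∈ F' ↔ w ∈ F) :
    Relation.ReflTransGen (PStep F') (u + p) (v + p) ↔ Relation.ReflTransGen (PStep F) u v := by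
  constructor
  · intro h1
    have h2 : ∀ z, Relation.ReflTransGen (PStep F') (u + p) z →
        Relation.ReflTransGen (PStep F) u (z - p) := by
      intro z hz
      induction hz with
      | refl => rw [add_sub_cancel_right]
      | @tail a b _ hab ih =>
        refine ih.tail ((pstep_sh (p := p) h).1 ?_)
        rwa [sub_add_cancel, sub_add_cancel]
    have h3 := h2 _ h1
    rwa [add_sub_cancel_right] at h3
  · intro h1
    induction h1 with
    | refl => exact Relation.ReflTransGen.refl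
    | tail _ hab ih => exact ih.tail ((pstep_sh h).2 hab)

theorem jn_sh {p : ℤ × ℤ} (hp : Even (p.1 + p.2)) (c : Bool) (D : Finset (ℤ × ℤ)) (ω : Cfg)
    (U T U' T' : Set (ℤ × ℤ)) (hU : ∀ w, w + p ∈ U' ↔ w ∈ U) (hT : ∀ w, w + p ∈ T' ↔ w ∈ T) :
    Jn c (shS p D) (shC p ω) U' T' ↔ Jn c D ω U T := by
  have hF : ∀ w, w + p ∈ (H632.cs c (shC p ω) ∩ (↑(shS p D) : Set (ℤ × ℤ))) ↔
      w ∈ (H632.cs c ω ∩ (↑D : Set (ℤ × ℤ))) := by
    intro w
    simp only [Set.mem_inter_iff, Finset.mem_coe, mem_shS, add_sub_cancel_right, H632.cs, shC,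
      Set.mem_ofPred_eq]
  have hpar : ∀ w : ℤ × ℤ, ((w + p).1 + (w + p).2) % 2 = (w.1 + w.2) % 2 := by
    intro w
    rw [Int.even_iff] at hp
    simp only [Prod.fst_add, Prod.snd_add]
    omega
  constructor
  · rintro ⟨u, hu, t, ht, h1, h2⟩
    refine ⟨u - p, (hU _).1 (by rwa [sub_add_cancel]), t - p, (hT _).1 (by rwa [sub_add_cancel]),
      ?_, ?_⟩
    · rw [← hpar, sub_add_cancel]; exact h1
    · rw [← rtg_sh hF, sub_add_cancel, sub_add_cancel]; exact h2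
  · rintro ⟨u, hu, t, ht, h1, h2⟩
    refine ⟨u + p, (hU _).2 hu, t + p, (hT _).2 ht, ?_, (rtg_sh hF).2 h2⟩
    rw [hpar]; exact h1

theorem shS_sdiff (p : ℤ × ℤ) (D Z : Finset (ℤ × ℤ)) : shS p D \ shS p Z = shS p (D \ Z) := by
  ext v
  simp only [Finset.mem_sdiff, mem_shS]

theorem fz_sh {p : ℤ × ℤ} (hp : Even (p.1 + p.2)) (D Z : Finset (ℤ × ℤ)) (ζ ω : Cfg)
    (W W' : Set (ℤ × ℤ)) (hW : ∀ w, w + p ∈ W' ↔ w ∈ W) :
    fz (shS p D) (shS p Z) (shC p ζ) W' (shC p ω) = fz D Z ζ W ω := by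
  unfold fz
  have h1 : (∀ v ∈ shS p Z, shC p ω v = shC p ζ v) ↔ ∀ v ∈ Z, ω v = ζ v := by
    constructor
    · intro h v hv
      have := h (v + p) (mem_shS.2 (by rwa [add_sub_cancel_right]))
      simpa only [shC, add_sub_cancel_right] using this
    · intro h v hv
      exact h _ (mem_shS.1 hv)
  have h2 := jn_sh hp false (D \ Z) ω (sites Z) W (sites (shS p Z)) W'
    (fun w => by
      rw [Finset.mem_coe, Finset.mem_coe, mem_sites_shS, add_sub_cancel_right]) hW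
  rw [shS_sdiff]
  by_cases h3 : (∀ v ∈ Z, ω v = ζ v) ∧ Jn false (D \ Z) ω (sites Z) W
  · rw [if_pos h3, if_pos ⟨h1.2 h3.1, h2.2 h3.2⟩]
  · rw [if_neg h3, if_neg fun hc => h3 ⟨h1.1 hc.1, h2.1 hc.2⟩]

theorem Ex_sh {p : ℤ × ℤ} (hp : Even (p.1 + p.2)) {Q : ℝ} (hQ : 0 < Q) (D : Finset (ℤ × ℤ))
    {η : Cfg} (hη : FK.Good η) (F : Cfg → ℝ) :
    FK.Ex Q (shS p D) (shC p η) F = FK.Ex Q D η fun ω => F (shC p ω) := by
  have hp' : Even ((-p).1 + (-p).2) := by
    rw [Int.even_iff] at hp ⊢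
    simp only [Prod.fst_neg, Prod.snd_neg]
    omega
  have h := (FK.sym_of (τ := fun v => (v.1 + (-p).1, v.2 + (-p).2)) (FK.trV (-p)) (fun _ => rfl)
    (FK.trE (-p)) (fun ω => (FK.syP_tr (-p) hp' ω).sy)).2 Q (shS p D) η F hQ hη
  have e1 : ∀ ω : Cfg, (ω ∘ fun v : ℤ × ℤ => (v.1 + (-p).1, v.2 + (-p).2)) = shC p ω := by
    intro ω
    funext v
    show ω _ = ω _
    congr 1
  have e2 : (shS p D).image (fun v => (v.1 + (-p).1, v.2 + (-p).2)) = D := by
    ext v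
    rw [Finset.mem_image]
    constructor
    · rintro ⟨w, hw, rfl⟩
      have := mem_shS.1 hw
      convert this using 1
      apply Prod.ext <;> simp only [Prod.fst_neg, Prod.snd_neg, Prod.fst_sub, Prod.snd_sub] <;> ring
    · intro hv
      refine ⟨v + p, mem_shS.2 (by rwa [add_sub_cancel_right]), ?_⟩
      apply Prod.ext <;> simp
  rw [e1, e2] at h
  rw [h]
  congr 1

theorem adm_sh {p : ℤ × ℤ} (hp : Even (p.1 + p.2)) {r R : ℤ} {Z : Finset (ℤ × ℤ)} {ζ : Cfg}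
    (h : Adm (0, 0) r R Z ζ) : Adm p r R (shS p Z) (shC p ζ) := by
  refine ⟨fun v hv => ?_, fun v hv => ?_, fun v hv w hw hw2 hs => ?_⟩
  · rw [mem_shS]
    apply h.low
    simp only [hbox, Finset.mem_product, Finset.mem_Icc, Prod.fst_sub, Prod.snd_sub] at hv ⊢
    omega
  · have := h.sub (mem_shS.1 hv)
    simp only [hbox, Finset.mem_product, Finset.mem_Icc, Prod.fst_sub, Prod.snd_sub] at this ⊢
    omega
  · obtain ⟨s, h1, h2, h3⟩ := hs
    refine h.sld (v - p) (mem_shS.1 hv) (w - p) (fun hc => hw (mem_shS.2 hc)) ?_ ⟨s - p, ?_, ?_, ?_⟩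
    · simp only [Prod.snd_sub]; omega
    · rw [mem_sites] at h1 ⊢
      obtain ⟨u, hu, k1, k2⟩ := h1
      rw [Finset.mem_singleton] at hu
      subst hu
      refine ⟨_, Finset.mem_singleton_self _, ?_, ?_⟩ <;>
        simp only [Prod.fst_sub, Prod.snd_sub] <;> omega
    · rw [mem_sites] at h2 ⊢
      obtain ⟨u, hu, k1, k2⟩ := h2
      rw [Finset.mem_singleton] at hu
      subst hu
      refine ⟨_, Finset.mem_singleton_self _, ?_, ?_⟩ <;>
        simp only [Prod.fst_sub, Prod.snd_sub] <;> omega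
    · rw [Int.even_iff] at h3 hp ⊢
      simp only [Prod.fst_sub, Prod.snd_sub]
      omega

/-- **The probabilities `PZ` do not depend on the (even) site of `d`.** -/
theorem pz_sh {μ : ℝ} (h0 : 0 < μ) (h1 : μ ≤ Real.pi / 3) {p : ℤ × ℤ} (hp : Even (p.1 + p.2))
    (N : ℕ) (P : Sh4) (Z : Finset (ℤ × ℤ)) (ζ : Cfg) :
    PZ μ N p P (shS p Z) (shC p ζ) = PZ μ N (0, 0) P Z ζ := by
  have hQ : (0 : ℝ) < 2 * Real.cos μ := H542.Q.BD.cos_pos h0 h1
  have e0 : dom N (0, 0) P = enl P.S N := by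
    unfold dom
    ext v
    simp only [Finset.mem_image]
    constructor
    · rintro ⟨w, hw, rfl⟩
      have : w + ((0, 0) : ℤ × ℤ) = w := by apply Prod.ext <;> simp
      rwa [this]
    · exact fun hv => ⟨v, hv, by apply Prod.ext <;> simp⟩
  have e1 : dom N p P = shS p (dom N (0, 0) P) := by
    rw [e0]; rfl
  have e2 : ext N p P = shC p (ext N (0, 0) P) := by
    funext v
    show etaW _ _ _ (v - p) = etaW _ _ _ (v - p - (0, 0))
    congr 1
    apply Prod.ext <;> simp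
  have e3 : ext N (0, 0) P = etaW (enl P.S N) (Enl.qN (rot P) N (N / 2)) ((P.m - P.k) * N) := by
    funext v
    show etaW _ _ _ (v - (0, 0)) = _
    congr 1
    apply Prod.ext <;> simp
  unfold PZ
  rw [e1, e2, Ex_sh hp hQ _ (by rw [e3]; exact H718.good_etaW)]
  congr 1
  funext ω
  refine fz_sh hp _ _ _ _ _ _ fun w => ?_
  constructor
  · rintro ⟨i, h1, h2, h3⟩
    refine ⟨i, h1, h2, ?_⟩
    have := add_right_cancel h3
    rw [this]
    apply Prod.ext <;> simp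
  · rintro ⟨i, h1, h2, h3⟩
    refine ⟨i, h1, h2, ?_⟩
    rw [← h3]
    congr 1
    apply Prod.ext <;> simp

end Vale.Agent.P167.QT
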